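import Crest.Agent.X212.Eps63.Bc

/-!
# Row 212, AN (helper63): functions with bounded jets off a thin set extend smoothly
-/

set_option autoImplicit false
set_option linter.unusedSectionVars false

open Set Filter Topology Metric
open scoped ContDiff

noncomputable section

namespace Crest.Agent.X212.Eps63

variable {E V : Type} [NormedAddCommGroup E] [NormedSpace ℝ E] [NormedAddCommGroup V]
  [NormedSpace ℝ V]

/-- every line can be pushed off `S` -/
def Thin (S : Set E) : Prop :=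
  ∀ x y : E, ∃ w : E, ∀ a b ε : ℝ, a + b = 1 → ε ≠ 0 → a • x + b • y + ε • w ∉ S

theorem Thin.mono {S T : Set E} (h : Thin T) (hS : S ⊆ T) : Thin S := fun x y =>
  (h x y).imp fun _ hw a b ε hab hε hm => hw a b ε hab hε (hS hm)

theorem thin_line [FiniteDimensional ℝ E] (h : 3 < Module.finrank ℝ E) (o q : E) :
    Thin {z | ∃ c : ℝ, z = o + c • q} := by
  classical
  intro x y
  have h1 : Submodule.span ℝ (({q, x - o, y - o} : Finset E) : Set E) ≠ ⊤ := by
    intro e
    have h2 := finrank_span_finset_le_card (R := ℝ) ({q, x - o, y - o} : Finset E)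
    have h3 : ({q, x - o, y - o} : Finset E).card ≤ 3 := Finset.card_le_three
    rw [Set.finrank, e, finrank_top] at h2
    omega
  obtain ⟨w, hw⟩ : ∃ w, w ∉ Submodule.span ℝ (({q, x - o, y - o} : Finset E) : Set E) := by
    by_contra! hc
    exact h1 (Submodule.eq_top_iff'.2 hc)
  refine ⟨w, fun a b ε hab hε ⟨c, hc⟩ => hw ?_⟩
  have e : w = ε⁻¹ • (c • q - a • (x - o) - b • (y - o)) := by
    have : c • q - a • (x - o) - b • (y - o) = ε • w := by
      rw [← sub_eq_iff_eq_add'] at hc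
      rw [← hc, show b = 1 - a by linarith]
      module
    rw [this, smul_smul, inv_mul_cancel₀ hε, one_smul]
  rw [e]
  refine Submodule.smul_mem _ _ (sub_mem (sub_mem ?_ ?_) ?_) <;>
    exact Submodule.smul_mem _ _ (Submodule.subset_span (by simp))

variable {S : Set E}

theorem tendsto_push (x w : E) : Tendsto (fun ε : ℝ => x + ε • w) (𝓝[>] 0) (𝓝 x) := by
  have : ContinuousAt (fun ε : ℝ => x + ε • w) 0 := by fun_prop
  simpa using this.tendsto.mono_left nhdsWithin_le_nhds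

theorem Thin.mem_closure (hS : Thin S) {B : Set E} (ho : IsOpen B) {x : E} (hx : x ∈ B) :
    x ∈ closure (B \ S) := by
  obtain ⟨w, hw⟩ := hS x x
  refine mem_closure_of_tendsto (tendsto_push x w) ?_
  filter_upwards [(tendsto_push x w).eventually (ho.mem_nhds hx), self_mem_nhdsWithin] with ε h1 h2
  exact ⟨h1, by simpa using hw 1 0 ε (by simp) (ne_of_gt h2)⟩

theorem Thin.lip (hS : Thin S) {B : Set E} (ho : IsOpen B) (hc : Convex ℝ B) {f : E → V} {K : ℝ}
    (hf : ∀ z ∈ B \ S, DifferentiableAt ℝ f z ∧ ‖fderiv ℝ f z‖ ≤ K) {x y : E} (hx : x ∈ B)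
    (hy : y ∈ B) (cx : ContinuousAt f x) (cy : ContinuousAt f y) : ‖f y - f x‖ ≤ K * ‖y - x‖ := by
  obtain ⟨w, hw⟩ := hS x y
  refine le_of_tendsto (((cy.tendsto.comp (tendsto_push y w)).sub
    (cx.tendsto.comp (tendsto_push x w))).norm) ?_
  filter_upwards [(tendsto_push x w).eventually (ho.mem_nhds hx),
    (tendsto_push y w).eventually (ho.mem_nhds hy), self_mem_nhdsWithin] with ε h1 h2 h3
  have sub : segment ℝ (x + ε • w) (y + ε • w) ⊆ B \ S := fun z hz =>
    ⟨hc.segment_subset h1 h2 hz, by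
      obtain ⟨a, b, -, -, hab, rfl⟩ := hz
      have e : a • (x + ε • w) + b • (y + ε • w) = a • x + b • y + ε • w := by
        rw [smul_add, smul_add, add_add_add_comm, ← add_smul, hab, one_smul]
      rw [e]
      exact hw a b ε hab (ne_of_gt h3)⟩
  have := (convex_segment (x + ε • w) (y + ε • w)).norm_image_sub_le_of_norm_fderiv_le
    (fun z hz => (hf z (sub hz)).1) (fun z hz => (hf z (sub hz)).2) (left_mem_segment ℝ _ _)
    (right_mem_segment ℝ _ _)
  simpa using this

variable [FiniteDimensional ℝ E] {B Ω : Set E}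

theorem Thin.ext0 [FiniteDimensional ℝ V] (hS : Thin S) (ho : IsOpen B) (hc : Convex ℝ B)
    (hΩ : IsOpen Ω) (h1 : B \ S ⊆ Ω) (h2 : Ω ⊆ B) {f : E → V}
    (s : Sm (fun _ : Unit => Ω) fun _ => f) (h : BC (fun _ : Unit => Ω) 1 fun _ => f) :
    ∃ g : E → V, Continuous g ∧ EqOn g f Ω := by
  obtain ⟨K, hK⟩ := (h.fderiv (fun _ => hΩ) s).b0
  have : LipschitzOnWith (Real.toNNReal K) f Ω := by
    refine LipschitzOnWith.of_dist_le' fun x hx y hy => ?_
    rw [dist_eq_norm, dist_eq_norm]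
    exact hS.lip ho hc (fun z hz => ⟨s.da (i := ()) (h1 hz), hK () z (h1 hz)⟩) (h2 hy) (h2 hx)
      (s () y hy).continuousAt (s () x hx).continuousAt
  obtain ⟨g, hg, e⟩ := this.extend_finite_dimension
  exact ⟨g, hg.continuous, e.symm⟩

theorem Thin.extn (hS : Thin S) (ho : IsOpen B) (hc : Convex ℝ B) (hΩ : IsOpen Ω)
    (h1 : B \ S ⊆ Ω) (h2 : Ω ⊆ B) : ∀ (n : ℕ) {V : Type} [NormedAddCommGroup V] [NormedSpace ℝ V]
    [FiniteDimensional ℝ V] {f g : E → V}, Sm (fun _ : Unit => Ω) (fun _ => f) →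
    (∀ k, BC (fun _ : Unit => Ω) k fun _ => f) → Continuous g → EqOn g f Ω → ContDiffOn ℝ n g B
  | 0, _, _, _, _, _, _, _, _, hg, _ => by simpa using hg.continuousOn
  | n + 1, V, _, _, _, f, g, s, h, hg, e => by
    have h' : ∀ k, BC (fun _ : Unit => Ω) k fun _ => fderiv ℝ f :=
      fun k => (h (k + 1)).fderiv (fun _ => hΩ) s
    obtain ⟨G, hG, eG⟩ := hS.ext0 ho hc hΩ h1 h2 s.fderiv (h' 1)
    have key : ∀ x ∈ B, HasFDerivAt g (G x) x := by
      intro x hx
      rw [hasFDerivAt_iff_isLittleO, Asymptotics.isLittleO_iff]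
      intro c hc0
      have a1 : ∀ᶠ y in 𝓝 x, ‖G y - G x‖ ≤ c := by
        have : Tendsto (fun y => ‖G y - G x‖) (𝓝 x) (𝓝 0) := by
          simpa using ((hG.tendsto x).sub_const (G x)).norm
        exact this.eventually (ge_mem_nhds hc0)
      obtain ⟨r, hr, hb⟩ := Metric.eventually_nhds_iff_ball.1 (a1.and (ho.mem_nhds hx))
      filter_upwards [ball_mem_nhds x hr] with y hy
      have c1 : Continuous fun y => g y - G x y := hg.sub (G x).continuous
      have := hS.lip isOpen_ball (convex_ball x r) (f := fun y => g y - G x y) (K := c)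
        (fun z hz => ?_) (mem_ball_self hr) hy c1.continuousAt c1.continuousAt
      · rwa [show g y - G x y - (g x - G x x) = g y - g x - G x (y - x) by rw [map_sub]; abel]
          at this
      · have hz' : z ∈ Ω := h1 ⟨(hb z hz.1).2, hz.2⟩
        have d : HasFDerivAt g (fderiv ℝ f z) z := (s.da (i := ()) hz').hasFDerivAt.congr_of_eventuallyEq
          (eventually_of_mem (hΩ.mem_nhds hz') e)
        have d' := d.sub (G x).hasFDerivAt
        refine ⟨d'.differentiableAt, ?_⟩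
        rw [show fderiv ℝ (fun y => g y - G x y) z = _ from d'.fderiv, ← eG hz']
        exact (hb z hz.1).1
    rw [Nat.cast_succ, contDiffOn_succ_iff_fderiv_of_isOpen ho]
    exact ⟨fun x hx => (key x hx).differentiableAt.differentiableWithinAt, by simp,
      (Thin.extn hS ho hc hΩ h1 h2 n s.fderiv h' hG eG).congr fun x hx => (key x hx).fderiv⟩

/-- **EXT**, convex case -/
theorem Thin.ext [FiniteDimensional ℝ V] (hS : Thin S) (ho : IsOpen B) (hc : Convex ℝ B)
    (hΩ : IsOpen Ω) (h1 : B \ S ⊆ Ω) (h2 : Ω ⊆ B) {f : E → V}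
    (s : Sm (fun _ : Unit => Ω) fun _ => f) (h : ∀ k, BC (fun _ : Unit => Ω) k fun _ => f) :
    ∃ g : E → V, (∀ x ∈ B, ContDiffAt ℝ ∞ g x) ∧ EqOn g f Ω := by
  obtain ⟨g, hg, e⟩ := hS.ext0 ho hc hΩ h1 h2 s (h 1)
  exact ⟨g, fun x hx => (contDiffOn_infty.2 fun n => hS.extn ho hc hΩ h1 h2 n s h hg e).contDiffAt
    (ho.mem_nhds hx), e⟩

/-- **EXT**, local form -/
theorem Thin.ext_loc [FiniteDimensional ℝ V] (hS : Thin S) {U : Set E} (hΩ : IsOpen Ω)
    (h1 : U \ S ⊆ Ω) {f : E → V} (s : Sm (fun _ : Unit => Ω) fun _ => f)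
    (h : ∀ z ∈ U, ∃ r > 0, ball z r ⊆ U ∧ ∀ k, BC (fun _ : Unit => ball z r ∩ Ω) k fun _ => f) :
    ∃ g : E → V, (∀ x ∈ U, ContDiffAt ℝ ∞ g x) ∧ EqOn g f Ω := by
  refine ⟨extendFrom Ω f, fun z hz => ?_, fun x hx =>
    extendFrom_eq (subset_closure hx) ((s () x hx).continuousAt.tendsto.mono_left
      nhdsWithin_le_nhds)⟩
  obtain ⟨r, hr, hb, hk⟩ := h z hz
  have sub : ball z r \ S ⊆ ball z r ∩ Ω := fun y hy => ⟨hy.1, h1 ⟨hb hy.1, hy.2⟩⟩
  obtain ⟨g, hg, e⟩ := hS.ext isOpen_ball (convex_ball z r) (isOpen_ball.inter hΩ) sub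
    inter_subset_left (fun _ x hx => s () x hx.2) hk
  refine (hg z (mem_ball_self hr)).congr_of_eventuallyEq ?_
  filter_upwards [ball_mem_nhds z hr] with y hy
  refine extendFrom_eq (closure_mono (fun x hx => (sub hx).2) (hS.mem_closure isOpen_ball hy)) ?_
  refine ((hg y hy).continuousAt.tendsto.mono_left nhdsWithin_le_nhds).congr' ?_
  filter_upwards [self_mem_nhdsWithin, nhdsWithin_le_nhds (isOpen_ball.mem_nhds hy)] with x a b
  exact e ⟨b, a⟩

theorem mem_of_dense {X : Type} [TopologicalSpace X] {f : E → X} {x : E} (hd : x ∈ closure Ω)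
    (cf : ContinuousAt f x) {K : Set X} (hK : IsClosed K) (h : ∀ y ∈ Ω, f y ∈ K) : f x ∈ K :=
  hK.closure_subset (cf.continuousWithinAt.mem_closure hd h)

theorem BC.dense {ι : Type} {Ω B : ι → Set E} (hd : ∀ i, B i ⊆ closure (Ω i)) :
    ∀ {k : ℕ} {f : ι → E → V}, Sm B f → BC Ω k f → BC B k f := by
  have h0 : ∀ {f : ι → E → V}, Sm B f → B0 Ω f → B0 B f := fun s h => h.imp fun C hC i x hx =>
    mem_of_dense (hd i hx) (s i x hx).continuousAt.norm (isClosed_Iic (a := C)) (hC i)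
  intro k
  induction k with
  | zero => exact h0
  | succ k ih => exact fun s h => ⟨h0 s h.1, fun v => ih (s.pd v) (h.2 v)⟩

/-- smooth functions have bounded jets on subsets of compact sets -/
theorem bc_of_compact {K : Set E} (hK : IsCompact K) (hΩ : IsOpen Ω) (h : Ω ⊆ K) {f : E → V}
    (s : ∀ x ∈ K, ContDiffAt ℝ ∞ f x) (k : ℕ) : BC (fun _ : Unit => Ω) k fun _ => f := by
  refine bc_of_itd (fun _ => hΩ) k (fun _ x hx => s x (h hx)) fun j _ => ?_
  have : ContinuousOn (iteratedFDeriv ℝ j f) K := fun x hx =>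
    ((s x hx).continuousAt_iteratedFDeriv (by exact_mod_cast le_top)).continuousWithinAt
  obtain ⟨C, hC⟩ := hK.exists_bound_of_continuousOn this
  exact ⟨C, fun _ x hx => hC x (h hx)⟩

end Crest.Agent.X212.Eps63

end
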