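import Crest.Agent.X212.Mp86.Bar

/-!
# Row 212, AN (helper63): scalar barrier estimates on compact annuli (ANN, A, B')

`L = Lop I e b`, `Q` an approximate squared distance in dimension four, `K = {d' ≤ Q ≤ d}`.
-/

set_option autoImplicit false
set_option linter.unusedSectionVars false

open Set Filter Topology
open scoped Manifold ContDiff
open Crest.Agent.X212.Mp86

noncomputable section

namespace Crest.Agent.X212.Eps63

universe u v w z

section
variable {E H M : Type*} [NormedAddCommGroup E] [NormedSpace ℝ E] [CompleteSpace E]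
  [TopologicalSpace H] (I : ModelWithCorners ℝ E H) [TopologicalSpace M] [ChartedSpace H M]
  [IsManifold I ∞ M] [BoundarylessManifold I M] {ι : Type*} [Fintype ι]

/-- a compact annulus `d' ≤ Q ≤ d` -/
structure Ann (e : ι → Π x : M, TangentSpace I x) (b : ι → M → ℝ) (Q : M → ℝ) (K : Set M)
    (d' d η : ℝ) : Prop where
  cpt : IsCompact K
  pos : 0 < d'
  vf : ∀ x ∈ K, ∀ a, VF I 1 (e a) x
  cQ : ∀ x ∈ K, CM I 2 Q x
  lo : ∀ x ∈ K, d' ≤ Q x
  hi : ∀ x ∈ K, Q x ≤ d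
  fr : ∀ x ∈ K, x ∉ interior K → Q x = d' ∨ Q x = d
  gr : ∀ x ∈ K, |∑ a, dv I (e a) Q x ^ 2 - 4 * Q x| ≤ η * Q x
  lap : ∀ x ∈ K, |Lop I e b Q x - 8| ≤ η

variable {I} {e : ι → Π x : M, TangentSpace I x} {b : ι → M → ℝ} {Q : M → ℝ} {K : Set M}
  {d' d η : ℝ} {x : M}

/-- **ANN**: comparison with a positive strict supersolution -/
theorem cmp_pos (hK : IsCompact K) (he : ∀ x ∈ K, ∀ a, VF I 1 (e a) x) {f ψ V : M → ℝ}
    (hf : ContinuousOn f K) (hψ : ∀ x ∈ K, 0 < ψ x ∧ CM I 2 ψ x)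
    (hs : ∀ x ∈ interior K, Lop I e b ψ x < -(V x * ψ x))
    (hL : ∀ x ∈ interior K, ψ x < f x → CM I 2 f x ∧ -(V x * f x) ≤ Lop I e b f x)
    (hfr : ∀ x ∈ K, x ∉ interior K → f x ≤ ψ x) : ∀ x ∈ K, f x ≤ ψ x := by
  intro x hx
  have cψ : ContinuousOn ψ K := fun y hy => (hψ y hy).2.continuousAt.continuousWithinAt
  obtain ⟨y, hy, hm⟩ := hK.exists_isMaxOn ⟨x, hx⟩ (hf.div cψ fun y hy => (hψ y hy).1.ne')
  set m := f y / ψ y with hmd
  have h1 : ∀ x ∈ K, f x ≤ m * ψ x := fun x hx => (div_le_iff₀ (hψ x hx).1).1 (hm hx)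
  have h2 : f y = m * ψ y := (div_mul_cancel₀ _ (hψ y hy).1.ne').symm
  by_contra! hc
  have m1 : 1 < m := by
    by_contra! h
    nlinarith [h1 x hx, (hψ x hx).1]
  have h3 : ψ y < f y := by nlinarith [(hψ y hy).1]
  have hi : y ∈ interior K := by
    by_contra h
    linarith [hfr y hy h]
  obtain ⟨a1, a2⟩ := hL y hi h3
  have c1 : CM I 2 (fun x => m * ψ x) y := contMDiffAt_const.mul (hψ y hy).2
  have h4 := Lop_nonpos (b := b) (f := fun x => f x - m * ψ x) (he y hy) (a1.sub c1) (by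
    filter_upwards [mem_interior_iff_mem_nhds.1 hi] with x hx
    linarith [h1 x hx])
  rw [Lop_sub (he y hy) a1 c1, Lop_mul _ (he y hy) (hψ y hy).2] at h4
  have h5 := mul_lt_mul_of_pos_left (hs y hi) (zero_lt_one.trans m1)
  rw [h2] at a2
  nlinarith

theorem cm_rpow {N : M → ℝ} (hN : CM I 2 N x) (h0 : 0 < N x) (s : ℝ) :
    CM I 2 (fun y => N y ^ s) x :=
  (Real.contDiffAt_rpow_const_of_ne (p := s) h0.ne').contMDiffAt.comp x hN

theorem cm_cmul {N : M → ℝ} (hN : CM I 2 N x) (c : ℝ) : CM I 2 (fun y => c * N y) x :=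
  contMDiffAt_const.mul hN

theorem Lop_rpow {N : M → ℝ} (he : ∀ a, VF I 1 (e a) x) (hN : CM I 2 N x) (h0 : 0 < N x) (s : ℝ) :
    Lop I e b (fun y => N y ^ s) x =
      s * (N x ^ s / N x) * (Lop I e b N x - (1 - s) * (∑ a, dv I (e a) N x ^ 2) / N x) := by
  rw [Lop_comp (g := fun t => t ^ s) (g' := fun t => s * t ^ (s - 1))
    (g'' := s * ((s - 1) * N x ^ (s - 1 - 1))) he hN
    ((lt_mem_nhds h0).mono fun t ht => Real.hasDerivAt_rpow_const (Or.inl ht.ne'))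
    ((Real.hasDerivAt_rpow_const (Or.inl h0.ne')).const_mul s),
    Real.rpow_sub_one h0.ne', Real.rpow_sub_one h0.ne']
  field_simp
  ring

theorem Ann.Q0 (h : Ann I e b Q K d' d η) (hx : x ∈ K) : 0 < Q x := h.pos.trans_le (h.lo x hx)

theorem Ann.eta (h : Ann I e b Q K d' d η) (hx : x ∈ K) : 0 ≤ η :=
  (abs_nonneg _).trans (h.lap x hx)

/-- the singular barriers -/
theorem Ann.neg (h : Ann I e b Q K d' d η) (hx : x ∈ K) {s c : ℝ} (s0 : 0 ≤ s) (s1 : s ≤ 1)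
    (hc : c ≤ s * (4 * (1 - s) - 3 * η)) :
    Lop I e b (fun y => Q y ^ (-s)) x ≤ -(c / Q x * Q x ^ (-s)) := by
  have q := h.Q0 hx
  rw [Lop_rpow (h.vf x hx) (h.cQ x hx) q]
  have a1 : (∑ a, dv I (e a) Q x ^ 2) / Q x ≤ 4 + η := by
    rw [div_le_iff₀ q]; linarith [(abs_le.1 (h.gr x hx)).2]
  have a2 := (abs_le.1 (h.lap x hx)).1
  have a3 : 0 < Q x ^ (-s) / Q x := div_pos (Real.rpow_pos_of_pos q _) q
  have a4 : c ≤ s * (Lop I e b Q x - (1 - -s) * (∑ a, dv I (e a) Q x ^ 2) / Q x) := by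
    refine hc.trans (mul_le_mul_of_nonneg_left ?_ s0)
    rw [mul_div_assoc]
    nlinarith [h.eta hx]
  have := mul_le_mul_of_nonneg_left a4 a3.le
  calc _ = -(Q x ^ (-s) / Q x * (s * (Lop I e b Q x -
        (1 - -s) * (∑ a, dv I (e a) Q x ^ 2) / Q x))) := by ring
    _ ≤ -(Q x ^ (-s) / Q x * c) := neg_le_neg this
    _ = _ := by ring

/-- the bounded barrier -/
theorem Ann.posb (h : Ann I e b Q K d' d η) (hx : x ∈ K) {s : ℝ} (s0 : 0 ≤ s) (s1 : s ≤ 1)
    (hη : η ≤ 1) : 2 * s * (Q x ^ s / Q x) ≤ Lop I e b (fun y => Q y ^ s) x := by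
  have q := h.Q0 hx
  rw [Lop_rpow (h.vf x hx) (h.cQ x hx) q]
  have a1 : (∑ a, dv I (e a) Q x ^ 2) / Q x ≤ 4 + η := by
    rw [div_le_iff₀ q]; linarith [(abs_le.1 (h.gr x hx)).2]
  have a2 := (abs_le.1 (h.lap x hx)).1
  have a3 : 0 ≤ s * (Q x ^ s / Q x) := by positivity
  have a4 : 2 ≤ Lop I e b Q x - (1 - s) * (∑ a, dv I (e a) Q x ^ 2) / Q x := by
    rw [mul_div_assoc]
    nlinarith [h.eta hx]
  nlinarith [mul_le_mul_of_nonneg_left a4 a3]

theorem sub_rpow {N : M → ℝ} (he : ∀ a, VF I 1 (e a) x) (hN : CM I 2 N x) (h0 : 0 < N x)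
    {β V : ℝ} (b0 : 0 ≤ β) (b1 : β ≤ 1) (hV : 0 ≤ V)
    (h : -(V * N x) ≤ Lop I e b N x - (1 - β) * (∑ a, dv I (e a) N x ^ 2) / N x) :
    -(V * N x ^ β) ≤ Lop I e b (fun y => N y ^ β) x := by
  rw [Lop_rpow he hN h0]
  have a3 : 0 ≤ β * (N x ^ β / N x) := by positivity
  refine le_trans ?_ (mul_le_mul_of_nonneg_left h a3)
  have : β * (N x ^ β / N x) * -(V * N x) = -(β * (V * N x ^ β)) := by field_simp
  rw [this, neg_le_neg_iff]
  exact mul_le_of_le_one_left (by positivity) b1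

theorem absorb {a W t g : ℝ} (ha : 0 < a) : W * t * g ≤ a * g ^ 2 + W ^ 2 * t ^ 2 / (4 * a) := by
  have : a * g ^ 2 + W ^ 2 * t ^ 2 / (4 * a) - W * t * g = (2 * a * g - W * t) ^ 2 / (4 * a) := by
    field_simp; ring
  have h2 : 0 ≤ (2 * a * g - W * t) ^ 2 / (4 * a) := by positivity
  linarith

theorem le_of_rpow_le {a c β : ℝ} (ha : 0 ≤ a) (hc : 0 ≤ c) (hβ : 0 < β) (h : a ^ β ≤ c) :
    a ≤ c ^ β⁻¹ := (Real.le_rpow_inv_iff_of_pos ha hc hβ).2 h

variable (I) in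
/-- hypotheses of `(B')` at a point: `h = |F|²`, `G = |DF|²`, refined Kato constant `k` -/
structure HB (e : ι → Π x : M, TangentSpace I x) (b : ι → M → ℝ) (k C S : ℝ) (h : M → ℝ)
    (x : M) : Prop where
  sm : CM I 2 h x
  ex : ∃ G W : ℝ, 0 ≤ G ∧ W ^ 2 ≤ C * (1 + √(h x)) ∧
    2 * G - C * √(h x) * (S + √(h x) + h x) - W * √(h x) * √G ≤ Lop I e b h x ∧
    ∑ a, dv I (e a) h x ^ 2 ≤ 4 * k * h x * G + C * h x * (S + h x + h x * √(h x))

theorem HB.sub {k C S : ℝ} {h : M → ℝ} (H : HB I e b k C S h x) (he : ∀ a, VF I 1 (e a) x)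
    (k0 : 0 ≤ k) (k1 : k < 1) (hC : 0 ≤ C) (h0 : 0 < h x) (hS : S ≤ h x) :
    -(C * (3 + 1 / (4 * ((1 - k) * (2 - k)))) * (1 + √(h x)) * h x ^ ((1 + k) / 4)) ≤
      Lop I e b (fun y => h y ^ ((1 + k) / 4)) x := by
  obtain ⟨G, W, G0, hW, h1, h2⟩ := H.ex
  have a0 : 0 < (1 - k) * (2 - k) := mul_pos (by linarith) (by linarith)
  refine sub_rpow he H.sm h0 (by linarith) (by linarith) (by positivity) ?_
  set t := √(h x) with ht
  have t0 : 0 ≤ t := Real.sqrt_nonneg _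
  have tt : t ^ 2 = h x := Real.sq_sqrt h0.le
  have a1 : (∑ a, dv I (e a) h x ^ 2) / h x ≤ 4 * k * G + C * (2 + t) * h x := by
    rw [div_le_iff₀ h0]
    nlinarith [mul_le_mul_of_nonneg_left hS (mul_nonneg hC h0.le)]
  have a2 := absorb (W := W) (t := t) (g := √G) a0
  rw [Real.sq_sqrt G0, tt] at a2
  have a3 : W ^ 2 * h x / (4 * ((1 - k) * (2 - k))) ≤
      C * (1 / (4 * ((1 - k) * (2 - k)))) * (1 + t) * h x := by
    rw [show C * (1 / (4 * ((1 - k) * (2 - k)))) * (1 + t) * h x =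
      C * (1 + t) * h x / (4 * ((1 - k) * (2 - k))) by ring]
    gcongr
  have a4 : C * t * (S + t + h x) ≤ C * (1 + 2 * t) * h x := by
    have := mul_le_mul_of_nonneg_left hS (mul_nonneg hC t0)
    nlinarith
  have a5 : (1 - (1 + k) / 4) * (∑ a, dv I (e a) h x ^ 2) / h x ≤
      k * (3 - k) * G + C * (2 + t) * h x := by
    rw [mul_div_assoc]
    refine (mul_le_mul_of_nonneg_left a1 (by linarith)).trans ?_
    have : 0 ≤ C * (2 + t) * h x := by positivity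
    nlinarith
  nlinarith

/-- **(B')** with explicit constants -/
theorem Ann.decay (A : Ann I e b Q K d' d η) {k p C ε : ℝ} (k0 : 0 ≤ k) (k1 : k < 1) (p0 : 0 < p)
    (p2 : p < 2) (hC : 0 ≤ C) (hη : η ≤ (1 - k) / 4) (ε1 : ε ≤ 1)
    (hε : C * (3 + 1 / (4 * ((1 - k) * (2 - k)))) * (d + ε) < p * (1 + k) / 4 * ((1 - k) / 4))
    {h : M → ℝ} (hc : ContinuousOn h K) (h0 : ∀ x ∈ K, 0 ≤ h x)
    (hb : ∀ x ∈ K, √(h x) * Q x ≤ ε)
    (H : ∀ x ∈ interior K, Q x ^ (-p) < h x → HB I e b k C (Q x ^ (-p)) h x) :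
    ∀ x ∈ K, d' ^ (((1 - k) / 4) / ((3 + k) / 4 - p * (1 + k) / 4)) ≤ Q x →
      h x ≤ (2 + d ^ ((p - 2) * (1 + k) / 4)) ^ ((1 + k) / 4)⁻¹ * Q x ^ (-p) := by
  intro x hx hx'
  set β := (1 + k) / 4 with hβ
  set s1 := p * (1 + k) / 4 with hs1
  set s2 := (3 + k) / 4 with hs2
  set C1 := C * (3 + 1 / (4 * ((1 - k) * (2 - k)))) with hC1
  have a0 : 0 < (1 - k) * (2 - k) := mul_pos (by linarith) (by linarith)
  have C10 : 0 ≤ C1 := by positivity
  have b0 : 0 < β := by positivity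
  have e1 : s1 = p * β := by rw [hs1, hβ]; ring
  have s10 : 0 < s1 := by positivity
  have s12 : s1 < s2 := by nlinarith
  have d0 : 0 < d := (A.Q0 hx).trans_le (A.hi x hx)
  set a := 1 + d ^ ((p - 2) * (1 + k) / 4) with ha
  set t := d' ^ ((1 - k) / 4) with ht
  have a1 : 1 ≤ a := le_add_of_nonneg_right (by positivity)
  have t0 : 0 < t := Real.rpow_pos_of_pos A.pos _
  have up : ∀ y ∈ K, h y ^ β ≤ Q y ^ (-(2 * β)) := by
    intro y hy
    have q := A.Q0 hy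
    have : h y ≤ Q y ^ (-2 : ℝ) := by
      have h1 : √(h y) ≤ (Q y)⁻¹ := by
        rw [← one_div, le_div_iff₀ q]; exact (hb y hy).trans ε1
      rw [Real.rpow_neg q.le, Real.rpow_two, ← inv_pow]
      exact (Real.sqrt_le_left (by positivity)).1 h1
    refine (Real.rpow_le_rpow (h0 y hy) this b0.le).trans_eq ?_
    rw [← Real.rpow_mul q.le]; ring_nf
  have key := cmp_pos (b := b) A.cpt A.vf (f := fun y => h y ^ β)
    (ψ := fun y => a * Q y ^ (-s1) + t * Q y ^ (-s2)) (V := fun y => C1 * (1 + √(h y)))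
    (hc.rpow_const fun _ _ => Or.inr b0.le)
    (fun y hy => ⟨by have := A.Q0 hy; positivity,
      (contMDiffAt_const.mul (cm_rpow (A.cQ y hy) (A.Q0 hy) _)).add
        (contMDiffAt_const.mul (cm_rpow (A.cQ y hy) (A.Q0 hy) _))⟩)
    (fun y hy => ?_) (fun y hy hl => ?_) (fun y hy hn => ?_) x hx
  · have q := A.Q0 hx
    have h1 : t * Q x ^ (-s2) ≤ Q x ^ (-s1) := by
      have h2 := Real.rpow_le_rpow (Real.rpow_pos_of_pos A.pos _).le hx' (sub_pos.2 s12).le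
      rw [← Real.rpow_mul A.pos.le, div_mul_cancel₀ _ (sub_pos.2 s12).ne'] at h2
      refine (mul_le_mul_of_nonneg_right h2 (by positivity)).trans_eq ?_
      rw [← Real.rpow_add q]; ring_nf
    have h2 : h x ^ β ≤ (1 + a) * Q x ^ (-s1) := by linarith
    refine (le_of_rpow_le (h0 x hx) (by positivity) b0 h2).trans_eq ?_
    rw [Real.mul_rpow (by positivity) (by positivity), ← Real.rpow_mul q.le, e1, ha,
      ← add_assoc, one_add_one_eq_two]
    congr 2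
    field_simp
  · have hy' := interior_subset hy
    have q := A.Q0 hy'
    have c1 := cm_rpow (A.cQ y hy') q (-s1)
    have c2 := cm_rpow (A.cQ y hy') q (-s2)
    rw [Lop_add (A.vf y hy') (cm_cmul c1 a) (cm_cmul c2 t),
      Lop_mul _ (A.vf y hy') c1, Lop_mul _ (A.vf y hy') c2]
    have n1 := A.neg hy' (s := s1) (c := s1 * ((1 - k) / 4)) s10.le (by linarith)
      (mul_le_mul_of_nonneg_left (by linarith) s10.le)
    have n2 := A.neg hy' (s := s2) (c := s1 * ((1 - k) / 4)) (by linarith) (by linarith)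
      (mul_le_mul s12.le (by linarith) (by linarith) (by linarith))
    have v1 : C1 * (1 + √(h y)) < s1 * ((1 - k) / 4) / Q y := by
      rw [lt_div_iff₀ q]
      refine lt_of_le_of_lt ?_ hε
      rw [mul_assoc]
      refine mul_le_mul_of_nonneg_left ?_ C10
      linarith [hb y hy', A.hi y hy']
    have p1 : 0 < a * Q y ^ (-s1) + t * Q y ^ (-s2) := by positivity
    nlinarith [mul_lt_mul_of_pos_right v1 p1, mul_le_mul_of_nonneg_left n1 (zero_le_one.trans a1),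
      mul_le_mul_of_nonneg_left n2 t0.le]
  · have hy' := interior_subset hy
    have q := A.Q0 hy'
    have l1 : Q y ^ (-p) < h y := by
      by_contra! hn
      have := Real.rpow_le_rpow (h0 y hy') hn b0.le
      rw [← Real.rpow_mul q.le, neg_mul, ← e1] at this
      have p1 : 0 < Q y ^ (-s1) := by positivity
      have p2 : 0 < t * Q y ^ (-s2) := by positivity
      nlinarith
    have hp : 0 < h y := (Real.rpow_pos_of_pos q _).trans l1
    exact ⟨cm_rpow (H y hy l1).sm hp _, (H y hy l1).sub (A.vf y hy') k0 k1 hC hp l1.le⟩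
  · have q := A.Q0 hy
    refine (up y hy).trans ?_
    rcases A.fr y hy hn with e | e
    · refine le_add_of_nonneg_of_le (by positivity) (le_of_eq ?_)
      rw [e, ht, ← Real.rpow_add A.pos]
      congr 1
      rw [hs2, hβ]; ring
    · refine le_add_of_le_of_nonneg ?_ (by positivity)
      rw [e, ha, add_mul, ← Real.rpow_add d0]
      refine le_add_of_nonneg_of_le (by positivity) (le_of_eq ?_)
      congr 1
      rw [hs1, hβ]; ring

variable (I) in
/-- hypotheses of `(A)` at a point -/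
structure HA (e : ι → Π x : M, TangentSpace I x) (b : ι → M → ℝ) (C : ℝ) (h : M → ℝ)
    (x : M) : Prop where
  sm : CM I 2 h x
  ex : ∃ G W : ℝ, 0 ≤ G ∧ W ^ 2 ≤ 1 + √(h x) ∧
    2 * G - C * (1 + √(h x)) * ((1 + √(h x)) ^ 2 + W * √G) ≤ Lop I e b h x ∧
    ∑ a, dv I (e a) h x ^ 2 ≤ 4 * h x * G

theorem HA.sub {C β : ℝ} {h : M → ℝ} (H : HA I e b C h x) (he : ∀ a, VF I 1 (e a) x)
    (hC : 0 ≤ C) (h0 : 0 ≤ h x) (b0 : 1 / 2 < β) (b1 : β ≤ 1) :
    CM I 2 (fun y => (1 + h y) ^ β) x ∧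
    -((2 * C + C ^ 2 / (2 * (4 * β - 2))) * (1 + √(h x)) * (1 + h x) ^ β) ≤
      Lop I e b (fun y => (1 + h y) ^ β) x := by
  obtain ⟨G, W, G0, hW, h1, h2⟩ := H.ex
  have a0 : 0 < 4 * β - 2 := by linarith
  have c1 : CM I 2 (fun y => 1 + h y) x := contMDiffAt_const.add H.sm
  have n0 : 0 < 1 + h x := by linarith
  refine ⟨cm_rpow c1 n0 _, sub_rpow he c1 n0 (by linarith) b1 (by positivity) ?_⟩
  rw [Lop_add he contMDiffAt_const H.sm, Lop_const, zero_add]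
  simp only [dv_add mdifferentiableAt_const (H.sm.md one_le_two), dv_const, zero_add]
  set t := √(h x) with ht
  have t0 : 0 ≤ t := Real.sqrt_nonneg _
  have tt : t ^ 2 = h x := Real.sq_sqrt h0
  have a1 : (∑ a, dv I (e a) h x ^ 2) / (1 + h x) ≤ 4 * G := by
    rw [div_le_iff₀ n0]; nlinarith
  have a2 := absorb (W := C * W) (t := 1 + t) (g := √G) a0
  rw [Real.sq_sqrt G0] at a2
  have a6 : (1 + t) ^ 2 ≤ 2 * (1 + h x) := by nlinarith [sq_nonneg (1 - t)]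
  have a3 : (C * W) ^ 2 * (1 + t) ^ 2 / (4 * (4 * β - 2)) ≤
      C ^ 2 / (2 * (4 * β - 2)) * (1 + t) * (1 + h x) := by
    rw [mul_pow]
    calc _ ≤ C ^ 2 * (1 + t) * (2 * (1 + h x)) / (4 * (4 * β - 2)) := by gcongr
      _ = _ := by field_simp; ring
  have a4 := mul_le_mul_of_nonneg_left a6 (by positivity : 0 ≤ C * (1 + t))
  have a5 := mul_le_mul_of_nonneg_left a1 (by linarith : 0 ≤ 1 - β)
  rw [mul_div_assoc]
  nlinarith

/-- **(A)** with explicit constants -/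
theorem Ann.bdd (A : Ann I e b Q K d' d η) {α β s C C1 : ℝ} (α0 : 0 ≤ α) (α2 : α < 2)
    (b0 : 1 / 2 < β) (b1 : β ≤ 1) (hs : α * β < s) (s1 : s < 1) (hC : 0 ≤ C) (hη : η ≤ 1 - s)
    (d1 : d ≤ 1) (hC1 : C1 = (2 * C + C ^ 2 / (2 * (4 * β - 2))) * (1 + √C))
    (hd : C1 * d ^ (1 - α / 2) < 1 - α / 2) (hd' : C1 * d ^ (1 - α / 2) ≤ s * (1 - s))
    {h : M → ℝ} (hc : ContinuousOn h K) (h0 : ∀ x ∈ K, 0 ≤ h x)
    (hb : ∀ x ∈ K, h x ≤ C * Q x ^ (-α)) (H : ∀ x ∈ interior K, HA I e b C h x) :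
    ∀ x ∈ K, d' ^ ((s - α * β) / s) ≤ Q x →
      h x ≤ (2 * (1 + C * d ^ (-α)) ^ β + (1 + C) ^ β) ^ β⁻¹ := by
  intro x hx hx'
  set σ := 1 - α / 2 with hσ
  have σ0 : 0 < σ := by linarith
  have β0 : 0 < β := by linarith
  have s0 : 0 < s := lt_of_le_of_lt (by positivity) hs
  have a0 : 0 < 4 * β - 2 := by linarith
  have d0 : 0 < d := (A.Q0 hx).trans_le (A.hi x hx)
  have C10 : 0 ≤ C1 := by rw [hC1]; positivity
  set a := (1 + C * d ^ (-α)) ^ β with ha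
  set t := (1 + C) ^ β * d' ^ (s - α * β) with ht
  have a1 : 0 < a := by positivity
  have t0 : 0 < t := mul_pos (by positivity) (Real.rpow_pos_of_pos A.pos _)
  have dσ : 0 < d ^ σ := by positivity
  have qd : ∀ y ∈ K, (d ^ σ)⁻¹ * Q y ^ σ ≤ 1 := fun y hy => by
    rw [inv_mul_le_iff₀ dσ, mul_one]
    exact Real.rpow_le_rpow (A.Q0 hy).le (A.hi y hy) σ0.le
  have q1 : ∀ y ∈ K, ∀ r : ℝ, 0 ≤ r → 1 ≤ Q y ^ (-r) := fun y hy r hr =>
    Real.one_le_rpow_of_pos_of_le_one_of_nonpos (A.Q0 hy) ((A.hi y hy).trans d1) (by linarith)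
  have key := cmp_pos (b := b) A.cpt A.vf (f := fun y => (1 + h y) ^ β)
    (ψ := fun y => a * (2 - (d ^ σ)⁻¹ * Q y ^ σ) + t * Q y ^ (-s))
    (V := fun y => (2 * C + C ^ 2 / (2 * (4 * β - 2))) * (1 + √(h y)))
    ((continuousOn_const.add hc).rpow_const fun _ _ => Or.inr β0.le)
    (fun y hy => ⟨add_pos (mul_pos a1 (by linarith [qd y hy]))
        (mul_pos t0 (Real.rpow_pos_of_pos (A.Q0 hy) _)),
      (contMDiffAt_const.mul (contMDiffAt_const.sub (contMDiffAt_const.mul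
        (cm_rpow (A.cQ y hy) (A.Q0 hy) _)))).add
        (contMDiffAt_const.mul (cm_rpow (A.cQ y hy) (A.Q0 hy) _))⟩)
    (fun y hy => ?_)
    (fun y hy _ => (H y hy).sub (A.vf y (interior_subset hy)) hC (h0 y (interior_subset hy)) b0 b1)
    (fun y hy hn => ?_) x hx
  · have q := A.Q0 hx
    have h1 : t * Q x ^ (-s) ≤ (1 + C) ^ β := by
      have h2 := Real.rpow_le_rpow (Real.rpow_pos_of_pos A.pos _).le hx' s0.le
      rw [← Real.rpow_mul A.pos.le, div_mul_cancel₀ _ s0.ne'] at h2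
      rw [ht, mul_assoc]
      refine mul_le_of_le_one_right (by positivity) ?_
      rw [Real.rpow_neg q.le, ← div_eq_mul_inv, div_le_one (by positivity)]
      exact h2
    have h3 : 0 ≤ a * ((d ^ σ)⁻¹ * Q x ^ σ) := by positivity
    have h2 : (1 + h x) ^ β ≤ 2 * a + (1 + C) ^ β := by linarith
    have := le_of_rpow_le (by linarith [h0 x hx]) (by positivity) β0 h2
    linarith
  · have hy' := interior_subset hy
    have q := A.Q0 hy'
    have he := A.vf y hy'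
    have c1 := cm_rpow (A.cQ y hy') q σ
    have c2 := cm_rpow (A.cQ y hy') q (-s)
    have c3 : CM I 2 (fun y => (d ^ σ)⁻¹ * Q y ^ σ) y := contMDiffAt_const.mul c1
    have c4 : CM I 2 (fun y => 2 - (d ^ σ)⁻¹ * Q y ^ σ) y := contMDiffAt_const.sub c3
    rw [Lop_add he (cm_cmul c4 a) (cm_cmul c2 t), Lop_mul _ he c4,
      Lop_mul _ he c2, Lop_sub he contMDiffAt_const c3, Lop_const, Lop_mul _ he c1]
    have n1 := A.posb hy' σ0.le (by linarith) (by linarith)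
    have n2 := A.neg hy' (s := s) (c := s * (1 - s)) s0.le s1.le
      (mul_le_mul_of_nonneg_left (by linarith) s0.le)
    set P := Q y ^ σ / Q y with hP
    have P0 : 0 < P := by positivity
    have eP : P = Q y ^ (-(α / 2)) := by rw [hP, ← Real.rpow_sub_one q.ne', hσ]; ring_nf
    have v0 : (2 * C + C ^ 2 / (2 * (4 * β - 2))) * (1 + √(h y)) ≤ C1 * P := by
      rw [hC1, mul_assoc]
      refine mul_le_mul_of_nonneg_left ?_ (by positivity)
      have r1 : √(h y) ≤ √C * P := by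
        rw [Real.sqrt_le_left (by positivity), mul_pow, Real.sq_sqrt hC, eP, ← Real.rpow_two,
          ← Real.rpow_mul q.le]
        convert hb y hy' using 3
        ring
      have r2 : 1 ≤ P := eP ▸ q1 y hy' _ (by linarith)
      linarith
    have v1 : C1 < σ * (d ^ σ)⁻¹ := by rw [← div_eq_mul_inv, lt_div_iff₀ dσ]; exact hd
    have v2 : C1 * P ≤ s * (1 - s) / Q y := by
      rw [hP, ← mul_div_assoc]
      refine div_le_div_of_nonneg_right (le_trans ?_ hd') q.le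
      exact mul_le_mul_of_nonneg_left (Real.rpow_le_rpow q.le (A.hi y hy') σ0.le) C10
    have w0 : 0 ≤ (d ^ σ)⁻¹ * Q y ^ σ := by positivity
    have w1 : 0 < a * (2 - (d ^ σ)⁻¹ * Q y ^ σ) + t * Q y ^ (-s) :=
      add_pos (mul_pos a1 (by linarith [qd y hy'])) (by positivity)
    have u1 := mul_le_mul_of_nonneg_right v0 w1.le
    have u2 := mul_le_mul_of_nonneg_left n2 t0.le
    have u3 := mul_le_mul_of_nonneg_right v2 (by positivity : 0 ≤ t * Q y ^ (-s))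
    have u4 := mul_le_mul_of_nonneg_left n1 (by positivity : 0 ≤ a * (d ^ σ)⁻¹)
    have u5 := mul_lt_mul_of_pos_right v1 (by positivity : 0 < 2 * a * P)
    have u6 : 0 ≤ C1 * P * a * ((d ^ σ)⁻¹ * Q y ^ σ) := by positivity
    nlinarith
  · have q := A.Q0 hy
    have n0 : 0 ≤ 1 + h y := by linarith [h0 y hy]
    rcases A.fr y hy hn with e | e
    · refine le_add_of_nonneg_of_le (mul_nonneg a1.le (by linarith [qd y hy])) ?_
      have r1 : 1 + h y ≤ (1 + C) * Q y ^ (-α) := by linarith [hb y hy, q1 y hy α α0]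
      refine (Real.rpow_le_rpow n0 r1 β0.le).trans_eq ?_
      rw [Real.mul_rpow (by positivity) (by positivity), ← Real.rpow_mul q.le, e, ht, mul_assoc,
        ← Real.rpow_add A.pos]
      congr 2
      ring
    · refine le_add_of_le_of_nonneg ?_ (by positivity)
      have r1 : 1 + h y ≤ 1 + C * d ^ (-α) := by have := hb y hy; rw [e] at this; linarith
      refine (Real.rpow_le_rpow n0 r1 β0.le).trans ?_
      exact le_mul_of_one_le_right a1.le (by linarith [qd y hy])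

end

theorem small_pow {C σ c : ℝ} (hσ : 0 < σ) (hc : 0 < c) :
    ∃ d0 > 0, ∀ d ∈ Ioc (0 : ℝ) d0, C * d ^ σ < c := by
  have h1 : ContinuousAt (fun d : ℝ => C * d ^ σ) 0 :=
    continuousAt_const.mul (Real.continuousAt_rpow_const 0 σ (Or.inr hσ.le))
  have h2 := h1.eventually (gt_mem_nhds (a := c) (by simpa [Real.zero_rpow hσ.ne'] using hc))
  obtain ⟨r, hr, hb⟩ := Metric.eventually_nhds_iff.1 h2
  refine ⟨r / 2, by positivity, fun d hd => hb ?_⟩
  rw [Real.dist_eq, sub_zero, abs_of_pos hd.1]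
  linarith [hd.2]

/-- **(B')**: `|F| ≤ ε r⁻²` on the annulus improves to `|F|² ≤ K' Q^(-p)` where `Q ≥ d'^γ` -/
theorem annB {k p C : ℝ} (k0 : 0 ≤ k) (k1 : k < 1) (p0 : 0 < p) (p2 : p < 2) (hC : 0 ≤ C) :
    ∃ ε > (0 : ℝ), ∃ γ > (0 : ℝ), ∀ d ∈ Ioc (0 : ℝ) ε, ∃ K' : ℝ, ∀ {E : Type u} {H : Type v}
      {M : Type w} [NormedAddCommGroup E] [NormedSpace ℝ E] [CompleteSpace E] [TopologicalSpace H]
      {I : ModelWithCorners ℝ E H} [TopologicalSpace M] [ChartedSpace H M] [IsManifold I ∞ M]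
      [BoundarylessManifold I M] {ι : Type z} [Fintype ι] {e : ι → Π x : M, TangentSpace I x}
      {b : ι → M → ℝ} {Q : M → ℝ} {K : Set M} {d' : ℝ} {h : M → ℝ}, Ann I e b Q K d' d ε →
      ContinuousOn h K → (∀ x ∈ K, 0 ≤ h x) → (∀ x ∈ K, √(h x) * Q x ≤ ε) →
      (∀ x ∈ interior K, Q x ^ (-p) < h x → HB I e b k C (Q x ^ (-p)) h x) →
      ∀ x ∈ K, d' ^ γ ≤ Q x → h x ≤ K' * Q x ^ (-p) := by
  obtain ⟨d0, h0, hd⟩ := small_pow (C := 2 * (C * (3 + 1 / (4 * ((1 - k) * (2 - k)))))) one_pos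
    (c := p * (1 + k) / 4 * ((1 - k) / 4)) (mul_pos (by positivity) (by linarith))
  have a0 : 0 < (1 - k) * (2 - k) := mul_pos (by linarith) (by linarith)
  have m0 : 0 < min d0 ((1 - k) / 4) := lt_min h0 (by linarith)
  refine ⟨min d0 ((1 - k) / 4), m0, _, div_pos (by linarith : 0 < (1 - k) / 4)
    (by nlinarith : 0 < (3 + k) / 4 - p * (1 + k) / 4), fun d hd' =>
    ⟨(2 + d ^ ((p - 2) * (1 + k) / 4)) ^ ((1 + k) / 4)⁻¹, fun A => ?_⟩⟩
  · refine A.decay k0 k1 p0 p2 hC (min_le_right _ _) ((min_le_right _ _).trans (by linarith)) ?_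
    refine lt_of_le_of_lt ?_ (hd _ ⟨m0, min_le_left _ _⟩)
    rw [Real.rpow_one]
    have : 0 ≤ C * (3 + 1 / (4 * ((1 - k) * (2 - k)))) := by positivity
    nlinarith [hd'.2]

/-- **(A)**: `h ≤ C Q^(-α)`, `α < 2`, on the annulus improves to `h ≤ K'` where `Q ≥ d'^γ` -/
theorem annA {α C : ℝ} (α0 : 0 ≤ α) (α2 : α < 2) (hC : 0 ≤ C) :
    ∃ ε > (0 : ℝ), ∃ γ > (0 : ℝ), ∀ d ∈ Ioc (0 : ℝ) ε, ∃ K' : ℝ, ∀ {E : Type u} {H : Type v}
      {M : Type w} [NormedAddCommGroup E] [NormedSpace ℝ E] [CompleteSpace E] [TopologicalSpace H]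
      {I : ModelWithCorners ℝ E H} [TopologicalSpace M] [ChartedSpace H M] [IsManifold I ∞ M]
      [BoundarylessManifold I M] {ι : Type z} [Fintype ι] {e : ι → Π x : M, TangentSpace I x}
      {b : ι → M → ℝ} {Q : M → ℝ} {K : Set M} {d' : ℝ} {h : M → ℝ}, Ann I e b Q K d' d ε →
      ContinuousOn h K → (∀ x ∈ K, 0 ≤ h x) → (∀ x ∈ K, h x ≤ C * Q x ^ (-α)) →
      (∀ x ∈ interior K, HA I e b C h x) → ∀ x ∈ K, d' ^ γ ≤ Q x → h x ≤ K' := by
  obtain ⟨β, b0, b1, b2⟩ : ∃ β : ℝ, 1 / 2 < β ∧ β ≤ 1 ∧ α * β < 1 :=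
    ⟨1 / 2 + (2 - α) / 8, by linarith, by linarith, by nlinarith⟩
  set s := (α * β + 1) / 2 with hs
  have s0 : 0 < s := by positivity
  have s1 : s < 1 := by linarith
  obtain ⟨d0, h0, hd⟩ := small_pow (C := (2 * C + C ^ 2 / (2 * (4 * β - 2))) * (1 + √C))
    (σ := 1 - α / 2) (by linarith) (c := min (1 - α / 2) (s * (1 - s)))
    (lt_min (by linarith) (mul_pos s0 (by linarith)))
  refine ⟨min d0 (1 - s), lt_min h0 (by linarith), (s - α * β) / s, div_pos (by linarith) s0,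
    fun d hd' => ⟨(2 * (1 + C * d ^ (-α)) ^ β + (1 + C) ^ β) ^ β⁻¹, fun A => ?_⟩⟩
  · have := hd d ⟨hd'.1, hd'.2.trans (min_le_left _ _)⟩
    exact A.bdd α0 α2 b0 b1 (by linarith) s1 hC (min_le_right _ _)
      (hd'.2.trans ((min_le_right _ _).trans (by linarith))) rfl
      (this.trans_le (min_le_left _ _)) (this.le.trans (min_le_right _ _))

end Crest.Agent.X212.Eps63

end
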