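import Mathlib

/-!
# Row 212, AN (helper63): uniformly bounded covariant jets of families

`Ω i` open subsets of `E`, `u i : E → V` smooth on `Ω i`, `A i x v : V →L V` a connection form.
`BD Ω A k u`: all words `D_{v₁} ⋯ D_{v_j} u`, `j ≤ k`, are bounded on `Ω i` uniformly in `i`.
`BC Ω k u` is the same for the trivial connection.
-/

set_option autoImplicit false
set_option linter.unusedSectionVars false

open Set Filter Topology
open scoped ContDiff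

noncomputable section

namespace Crest.Agent.X212.Eps63

variable {ι E V W Z : Type} [NormedAddCommGroup E] [NormedSpace ℝ E] [NormedAddCommGroup V]
  [NormedSpace ℝ V] [NormedAddCommGroup W] [NormedSpace ℝ W] [NormedAddCommGroup Z]
  [NormedSpace ℝ Z]

/-- covariant derivative in the constant direction `v` -/
def cD (A : E → E →L[ℝ] V →L[ℝ] V) (v : E) (u : E → V) (x : E) : V :=
  fderiv ℝ u x v + A x v (u x)

/-- uniform bound -/
def B0 (Ω : ι → Set E) (u : ι → E → V) : Prop := ∃ C : ℝ, ∀ i, ∀ x ∈ Ω i, ‖u i x‖ ≤ C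

/-- smooth family on open sets -/
def Sm (Ω : ι → Set E) (u : ι → E → V) : Prop := ∀ i, ∀ x ∈ Ω i, ContDiffAt ℝ ∞ (u i) x

/-- uniform bounds of covariant words of length `≤ k` -/
def BD (Ω : ι → Set E) (A : ι → E → E →L[ℝ] V →L[ℝ] V) : ℕ → (ι → E → V) → Prop
  | 0, u => B0 Ω u
  | k + 1, u => B0 Ω u ∧ ∀ v, BD Ω A k fun i => cD (A i) v (u i)

/-- uniform bounds of partial derivatives of order `≤ k` -/
def BC (Ω : ι → Set E) : ℕ → (ι → E → V) → Prop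
  | 0, u => B0 Ω u
  | k + 1, u => B0 Ω u ∧ ∀ v, BC Ω k fun i x => fderiv ℝ (u i) x v

variable {Ω : ι → Set E} {A : ι → E → E →L[ℝ] V →L[ℝ] V}

theorem Sm.da {u : ι → E → V} (h : Sm Ω u) {i : ι} {x : E} (hx : x ∈ Ω i) :
    DifferentiableAt ℝ (u i) x := (h i x hx).differentiableAt (by simp)

theorem Sm.fderiv {u : ι → E → V} (h : Sm Ω u) : Sm Ω fun i => fderiv ℝ (u i) :=
  fun i x hx => (h i x hx).fderiv_right (m := ∞) (by simp)

theorem Sm.c2 {u : ι → E → V} (h : Sm Ω u) {i : ι} {x : E} (hx : x ∈ Ω i) :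
    ContDiffAt ℝ 2 (u i) x := (h i x hx).of_le (by norm_cast)

theorem Sm.symm {u : ι → E → V} (h : Sm Ω u) {i : ι} {x : E} (hx : x ∈ Ω i) :
    IsSymmSndFDerivAt ℝ (u i) x := (h.c2 hx).isSymmSndFDerivAt (by simp)

theorem Sm.pd {u : ι → E → V} (h : Sm Ω u) (v : E) : Sm Ω fun i x => _root_.fderiv ℝ (u i) x v :=
  fun i x hx => (h.fderiv i x hx).clm_apply contDiffAt_const

theorem Sm.add {u w : ι → E → V} (h : Sm Ω u) (h' : Sm Ω w) : Sm Ω fun i x => u i x + w i x :=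
  fun i x hx => (h i x hx).add (h' i x hx)

theorem Sm.sub {u w : ι → E → V} (h : Sm Ω u) (h' : Sm Ω w) : Sm Ω fun i x => u i x - w i x :=
  fun i x hx => (h i x hx).sub (h' i x hx)

theorem Sm.clm {u : ι → E → V} (h : Sm Ω u) (L : V →L[ℝ] W) : Sm Ω fun i x => L (u i x) :=
  fun i x hx => L.contDiff.contDiffAt.comp x (h i x hx)

theorem Sm.app {u : ι → E → V →L[ℝ] W} {w : ι → E → V} (h : Sm Ω u) (h' : Sm Ω w) :
    Sm Ω fun i x => u i x (w i x) := fun i x hx => (h i x hx).clm_apply (h' i x hx)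

theorem Sm.const (c : V) : Sm Ω fun _ _ => c := fun _ _ _ => contDiffAt_const

theorem Sm.cD {u : ι → E → V} (hA : Sm Ω A) (h : Sm Ω u) (v : E) :
    Sm Ω fun i => cD (A i) v (u i) := (h.pd v).add ((hA.app (Sm.const v)).app h)

theorem Sm.congr (ho : ∀ i, IsOpen (Ω i)) {u w : ι → E → V} (h : Sm Ω u)
    (e : ∀ i, ∀ x ∈ Ω i, w i x = u i x) : Sm Ω w := fun i x hx =>
  (h i x hx).congr_of_eventuallyEq (eventually_of_mem ((ho i).mem_nhds hx) (e i))

theorem B0.congr {u w : ι → E → V} (h : B0 Ω u) (e : ∀ i, ∀ x ∈ Ω i, w i x = u i x) : B0 Ω w :=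
  h.imp fun _ hC i x hx => by rw [e i x hx]; exact hC i x hx

theorem B0.add {u w : ι → E → V} (h : B0 Ω u) (h' : B0 Ω w) : B0 Ω fun i x => u i x + w i x := by
  obtain ⟨C, hC⟩ := h
  obtain ⟨D, hD⟩ := h'
  exact ⟨C + D, fun i x hx => (norm_add_le _ _).trans (add_le_add (hC i x hx) (hD i x hx))⟩

theorem B0.app {u : ι → E → V →L[ℝ] W} {w : ι → E → V} (h : B0 Ω u) (h' : B0 Ω w) :
    B0 Ω fun i x => u i x (w i x) := by
  obtain ⟨C, hC⟩ := h
  obtain ⟨D, hD⟩ := h'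
  exact ⟨C * D, fun i x hx => ((u i x).le_opNorm _).trans
    (mul_le_mul (hC i x hx) (hD i x hx) (norm_nonneg _) ((norm_nonneg _).trans (hC i x hx)))⟩

theorem B0.const (c : V) : B0 Ω fun _ _ => c := ⟨‖c‖, fun _ _ _ => le_rfl⟩

theorem B0.clm {u : ι → E → V} (h : B0 Ω u) (L : V →L[ℝ] W) : B0 Ω fun i x => L (u i x) :=
  (B0.const L).app h

theorem fderiv_congr (ho : ∀ i, IsOpen (Ω i)) {u w : ι → E → V}
    (e : ∀ i, ∀ x ∈ Ω i, w i x = u i x) {i : ι} {x : E} (hx : x ∈ Ω i) :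
    fderiv ℝ (w i) x = fderiv ℝ (u i) x :=
  Filter.EventuallyEq.fderiv_eq (eventually_of_mem ((ho i).mem_nhds hx) (e i))

/-! ### `BD` -/

theorem BD.b0 : ∀ {k : ℕ} {u : ι → E → V}, BD Ω A k u → B0 Ω u
  | 0, _, h => h
  | _ + 1, _, h => h.1

theorem BD.pred : ∀ {k : ℕ} {u : ι → E → V}, BD Ω A (k + 1) u → BD Ω A k u
  | 0, _, h => h.1
  | _ + 1, _, h => ⟨h.1, fun v => BD.pred (h.2 v)⟩

theorem BD.congr (ho : ∀ i, IsOpen (Ω i)) : ∀ {k : ℕ} {u w : ι → E → V}, BD Ω A k u →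
    (∀ i, ∀ x ∈ Ω i, w i x = u i x) → BD Ω A k w
  | 0, _, _, h, e => B0.congr h e
  | _ + 1, _, _, h, e => ⟨h.1.congr e, fun v => BD.congr ho (h.2 v) fun i x hx => by
      rw [cD, cD, fderiv_congr ho e hx, e i x hx]⟩

theorem BD.congrA (ho : ∀ i, IsOpen (Ω i)) {A' : ι → E → E →L[ℝ] V →L[ℝ] V}
    (e : ∀ i, ∀ x ∈ Ω i, A' i x = A i x) : ∀ {k : ℕ} {u : ι → E → V}, BD Ω A k u → BD Ω A' k u
  | 0, _, h => h
  | _ + 1, _, h => ⟨h.1, fun v => BD.congr ho (BD.congrA ho e (h.2 v)) fun i x hx => by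
      rw [cD, cD, e i x hx]⟩

theorem cD_add {A : E → E →L[ℝ] V →L[ℝ] V} {u w : E → V} {x : E} (hu : DifferentiableAt ℝ u x)
    (hw : DifferentiableAt ℝ w x) (v : E) :
    cD A v (fun y => u y + w y) x = cD A v u x + cD A v w x := by
  rw [cD, cD, cD, fderiv_fun_add hu hw, map_add, add_apply]; abel

theorem BD.add (ho : ∀ i, IsOpen (Ω i)) (hA : Sm Ω A) : ∀ {k : ℕ} {u w : ι → E → V}, Sm Ω u →
    Sm Ω w → BD Ω A k u → BD Ω A k w → BD Ω A k fun i x => u i x + w i x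
  | 0, _, _, _, _, h, h' => B0.add h h'
  | _ + 1, _, _, s, s', h, h' => ⟨h.1.add h'.1, fun v =>
      (BD.add ho hA (hA.cD s v) (hA.cD s' v) (h.2 v) (h'.2 v)).congr ho fun _ _ hx =>
        cD_add (s.da hx) (s'.da hx) v⟩

/-- parallel linear maps act on bounded words -/
theorem BD.clm (ho : ∀ i, IsOpen (Ω i)) (hA : Sm Ω A) {A' : ι → E → E →L[ℝ] W →L[ℝ] W}
    (L : V →L[ℝ] W) (hL : ∀ i, ∀ x ∈ Ω i, ∀ v y, A' i x v (L y) = L (A i x v y)) :
    ∀ {k : ℕ} {u : ι → E → V}, Sm Ω u → BD Ω A k u → BD Ω A' k fun i x => L (u i x)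
  | 0, _, _, h => B0.clm h L
  | _ + 1, u, s, h => ⟨h.1.clm L, fun v =>
      (BD.clm ho hA L hL (hA.cD s v) (h.2 v)).congr ho fun i x hx => by
        have := (L.hasFDerivAt.comp x (s.da hx).hasFDerivAt).fderiv
        rw [cD, cD, hL i x hx, map_add]
        exact congrArg (· + _) (congrArg (fun T : E →L[ℝ] W => T v) this)⟩

theorem BD.zero (ho : ∀ i, IsOpen (Ω i)) : ∀ k : ℕ, BD Ω A k fun _ _ => 0
  | 0 => B0.const 0
  | k + 1 => ⟨B0.const 0, fun v => (BD.zero ho k).congr ho fun i x _ => by simp [cD]⟩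

theorem BD.sum (ho : ∀ i, IsOpen (Ω i)) (hA : Sm Ω A) {κ : Type} (s : Finset κ) {k : ℕ}
    {u : κ → ι → E → V} (hs : ∀ a, Sm Ω (u a)) (h : ∀ a, BD Ω A k (u a)) :
    Sm Ω (fun i x => ∑ a ∈ s, u a i x) ∧ BD Ω A k fun i x => ∑ a ∈ s, u a i x := by
  classical
  induction s using Finset.induction_on with
  | empty => simpa using ⟨Sm.const 0, BD.zero ho k⟩
  | insert a s ha ih =>
    simp only [Finset.sum_insert ha]
    exact ⟨(hs a).add ih.1, BD.add ho hA (hs a) ih.1 (h a) ih.2⟩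

theorem BD.smul (ho : ∀ i, IsOpen (Ω i)) (hA : Sm Ω A) (c : ℝ) {k : ℕ} {u : ι → E → V}
    (s : Sm Ω u) (h : BD Ω A k u) : BD Ω A k fun i x => c • u i x :=
  BD.clm ho hA (c • ContinuousLinearMap.id ℝ V) (fun _ _ _ _ _ => by simp) s h

/-- it is enough to bound the words in a basis -/
theorem bd_of_basis (ho : ∀ i, IsOpen (Ω i)) (hA : Sm Ω A) {κ : Type} [Fintype κ]
    (b : Module.Basis κ ℝ E) (P : (ι → E → V) → Prop) (h0 : ∀ u, P u → Sm Ω u ∧ B0 Ω u)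
    (h1 : ∀ u, P u → ∀ a, P fun i => cD (A i) (b a) (u i)) :
    ∀ (k : ℕ) (u : ι → E → V), P u → BD Ω A k u
  | 0, u, h => (h0 u h).2
  | k + 1, u, h => ⟨(h0 u h).2, fun v => by
      have s := fun a => hA.cD (h0 u h).1 (b a)
      refine (BD.sum ho hA Finset.univ
        (u := fun a i x => b.repr v a • cD (A i) (b a) (u i) x)
        (fun a => (s a).clm (b.repr v a • ContinuousLinearMap.id ℝ V))
        (fun a => BD.smul ho hA _ (s a) (bd_of_basis ho hA b P h0 h1 k _ (h1 u h a)))).2.congr ho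
        fun i x _ => ?_
      conv_lhs => rw [← b.sum_repr v]
      simp only [cD, map_sum, map_smul, smul_add, Finset.sum_add_distrib, sum_apply, smul_apply]⟩

/-- gauge change: `dG = G A - A' G` -/
theorem BD.gauge (ho : ∀ i, IsOpen (Ω i)) (hA : Sm Ω A) {A' : ι → E → E →L[ℝ] W →L[ℝ] W}
    {G : ι → E → V →L[ℝ] W} (hG : Sm Ω G) (bG : B0 Ω G)
    (e : ∀ i, ∀ x ∈ Ω i, ∀ v y, fderiv ℝ (G i) x v y = G i x (A i x v y) - A' i x v (G i x y)) :
    ∀ {k : ℕ} {u : ι → E → V}, Sm Ω u → BD Ω A k u → BD Ω A' k fun i x => G i x (u i x)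
  | 0, _, _, h => B0.app bG h
  | _ + 1, u, s, h => ⟨bG.app h.1, fun v =>
      (BD.gauge ho hA hG bG e (hA.cD s v) (h.2 v)).congr ho fun i x hx => by
        rw [cD, cD, fderiv_clm_apply (hG.da hx) (s.da hx)]
        simp [e i x hx, add_assoc]⟩

/-! ### `BC` -/

theorem bc_iff_bd (ho : ∀ i, IsOpen (Ω i)) : ∀ {k : ℕ} {u : ι → E → V},
    BC Ω k u ↔ BD Ω (fun _ _ => 0) k u
  | 0, _ => Iff.rfl
  | _ + 1, u => and_congr_right fun _ => forall_congr' fun v => (bc_iff_bd ho).trans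
      ⟨fun h => h.congr ho fun i x _ => by simp [cD], fun h => h.congr ho fun i x _ => by simp [cD]⟩

theorem BC.b0 : ∀ {k : ℕ} {u : ι → E → V}, BC Ω k u → B0 Ω u
  | 0, _, h => h
  | _ + 1, _, h => h.1

theorem BC.pred : ∀ {k : ℕ} {u : ι → E → V}, BC Ω (k + 1) u → BC Ω k u
  | 0, _, h => h.1
  | _ + 1, _, h => ⟨h.1, fun v => BC.pred (h.2 v)⟩

theorem BC.congr (ho : ∀ i, IsOpen (Ω i)) {k : ℕ} {u w : ι → E → V} (h : BC Ω k u)
    (e : ∀ i, ∀ x ∈ Ω i, w i x = u i x) : BC Ω k w :=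
  (bc_iff_bd ho).2 (((bc_iff_bd ho).1 h).congr ho e)

theorem BC.add (ho : ∀ i, IsOpen (Ω i)) {k : ℕ} {u w : ι → E → V} (s : Sm Ω u) (s' : Sm Ω w)
    (h : BC Ω k u) (h' : BC Ω k w) : BC Ω k fun i x => u i x + w i x :=
  (bc_iff_bd ho).2 (BD.add ho (Sm.const 0) s s' ((bc_iff_bd ho).1 h) ((bc_iff_bd ho).1 h'))

theorem BC.clm (ho : ∀ i, IsOpen (Ω i)) (L : V →L[ℝ] W) {k : ℕ} {u : ι → E → V} (s : Sm Ω u)
    (h : BC Ω k u) : BC Ω k fun i x => L (u i x) :=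
  (bc_iff_bd ho).2 (BD.clm ho (Sm.const 0) L (fun _ _ _ _ _ => by simp) s ((bc_iff_bd ho).1 h))

theorem BC.sub (ho : ∀ i, IsOpen (Ω i)) {k : ℕ} {u w : ι → E → V} (s : Sm Ω u) (s' : Sm Ω w)
    (h : BC Ω k u) (h' : BC Ω k w) : BC Ω k fun i x => u i x - w i x :=
  (BC.add ho s (s'.clm (-ContinuousLinearMap.id ℝ V)) h (BC.clm ho _ s' h')).congr ho
    fun _ _ _ => by simp [sub_eq_add_neg]

theorem BC.const (ho : ∀ i, IsOpen (Ω i)) (c : V) : ∀ k : ℕ, BC Ω k fun _ _ => c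
  | 0 => B0.const c
  | k + 1 => ⟨B0.const c, fun v => ((bc_iff_bd ho).2 (BD.zero ho k)).congr ho fun i x _ => by simp⟩

theorem BC.sum (ho : ∀ i, IsOpen (Ω i)) {κ : Type} (s : Finset κ) {k : ℕ}
    {u : κ → ι → E → V} (hs : ∀ a, Sm Ω (u a)) (h : ∀ a, BC Ω k (u a)) :
    BC Ω k fun i x => ∑ a ∈ s, u a i x :=
  (bc_iff_bd ho).2 (BD.sum ho (Sm.const 0) s hs fun a => (bc_iff_bd ho).1 (h a)).2

theorem BC.app (ho : ∀ i, IsOpen (Ω i)) : ∀ {k : ℕ} {u : ι → E → V →L[ℝ] W} {w : ι → E → V},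
    Sm Ω u → Sm Ω w → BC Ω k u → BC Ω k w → BC Ω k fun i x => u i x (w i x)
  | 0, _, _, _, _, h, h' => B0.app h h'
  | _ + 1, _, _, s, s', h, h' => ⟨h.1.app h'.1, fun v =>
      (BC.add ho (s.app (s'.pd v)) ((s.pd v).app s') (BC.app ho s (s'.pd v) h.pred (h'.2 v))
        (BC.app ho (s.pd v) s' (h.2 v) h'.pred)).congr ho fun i x hx => by
        rw [fderiv_clm_apply (s.da hx) (s'.da hx)]
        simp⟩

/-- from covariant to plain derivatives -/
theorem BD.bc (ho : ∀ i, IsOpen (Ω i)) (hA : Sm Ω A) : ∀ {k : ℕ} {u : ι → E → V}, Sm Ω u →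
    (∀ v, BC Ω k fun i x => A i x v) → BD Ω A (k + 1) u → BC Ω (k + 1) u
  | 0, u, _, a, h => ⟨h.1, fun v => by
      have h1 : B0 Ω fun i x => cD (A i) v (u i) x := h.2 v
      refine (h1.add ((B0.app (a v) h.1).clm (-ContinuousLinearMap.id ℝ V))).congr fun i x _ => ?_
      simp [cD]⟩
  | k + 1, u, s, a, h => ⟨h.1, fun v => by
      have a' := fun v => (a v).pred
      refine (BC.sub ho (hA.cD s v) ((hA.app (Sm.const v)).app s)
        (BD.bc ho hA (hA.cD s v) a' (h.2 v))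
        (BC.app ho (hA.app (Sm.const v)) s (a v) (BD.bc ho hA s a' h.pred))).congr ho
        fun i x _ => ?_
      simp [cD]⟩

/-- from plain to covariant derivatives -/
theorem BC.bd (ho : ∀ i, IsOpen (Ω i)) (hA : Sm Ω A) (a : ∀ k v, BC Ω k fun i x => A i x v) :
    ∀ {k : ℕ} {u : ι → E → V}, Sm Ω u → BC Ω k u → BD Ω A k u
  | 0, _, _, h => h
  | k + 1, _, s, h => ⟨h.1, fun v => BC.bd ho hA a (hA.cD s v)
      (BC.add ho (s.pd v) ((hA.app (Sm.const v)).app s) (h.2 v)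
        (BC.app ho (hA.app (Sm.const v)) s (a k v) h.pred))⟩

/-- a family of linear maps is bounded if its values on vectors are -/
theorem bc_of_apply [FiniteDimensional ℝ V] (ho : ∀ i, IsOpen (Ω i)) {k : ℕ}
    {T : ι → E → V →L[ℝ] W} (s : Sm Ω T) (h : ∀ v, BC Ω k fun i x => T i x v) : BC Ω k T := by
  let b := Module.finBasis ℝ V
  let L : Fin (Module.finrank ℝ V) → W →L[ℝ] V →L[ℝ] W := fun a =>
    ContinuousLinearMap.smulRightL ℝ V W (LinearMap.toContinuousLinearMap (b.coord a))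
  refine (BC.sum ho Finset.univ (u := fun a i x => L a (T i x (b a)))
    (fun a => (s.app (Sm.const _)).clm _)
    fun a => BC.clm ho _ (s.app (Sm.const _)) (h _)).congr ho fun i x _ => ?_
  ext v
  conv_lhs => rw [← b.sum_repr v]
  simp only [map_sum, map_smul, sum_apply]
  rfl

theorem BC.fderiv [FiniteDimensional ℝ E] (ho : ∀ i, IsOpen (Ω i)) {k : ℕ} {u : ι → E → V}
    (s : Sm Ω u) (h : BC Ω (k + 1) u) : BC Ω k fun i => fderiv ℝ (u i) :=
  bc_of_apply ho s.fderiv h.2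

/-- `BC` bounds the iterated derivatives -/
theorem BC.itd [FiniteDimensional ℝ E] (ho : ∀ i, IsOpen (Ω i)) : ∀ (k : ℕ) {V : Type}
    [NormedAddCommGroup V] [NormedSpace ℝ V] {u : ι → E → V}, Sm Ω u → BC Ω k u →
    ∃ C : ℝ, ∀ i, ∀ x ∈ Ω i, ‖iteratedFDeriv ℝ k (u i) x‖ ≤ C
  | 0, _, _, _, _, _, h => by simpa only [norm_iteratedFDeriv_zero, BC, B0] using h
  | k + 1, _, _, _, _, s, h => by
      simpa only [norm_iteratedFDeriv_fderiv] using BC.itd ho k s.fderiv (h.fderiv ho s)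

theorem bc_of_itd (ho : ∀ i, IsOpen (Ω i)) : ∀ (k : ℕ) {V : Type}
    [NormedAddCommGroup V] [NormedSpace ℝ V] {u : ι → E → V}, Sm Ω u →
    (∀ j ≤ k, ∃ C : ℝ, ∀ i, ∀ x ∈ Ω i, ‖iteratedFDeriv ℝ j (u i) x‖ ≤ C) → BC Ω k u
  | 0, _, _, _, _, _, h => by simpa only [norm_iteratedFDeriv_zero, BC, B0] using h 0 le_rfl
  | k + 1, V, _, _, _, s, h => ⟨by
      simpa only [norm_iteratedFDeriv_zero, B0] using h 0 k.succ.zero_le,
      fun v => BC.clm ho (ContinuousLinearMap.apply ℝ V v) s.fderiv (bc_of_itd ho k s.fderiv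
        fun j hj => by simpa only [norm_iteratedFDeriv_fderiv] using h (j + 1) (by omega))⟩

theorem B0.reindex {ι' : Type} {Ω' : ι' → Set E} (f : ι' → ι) (hf : ∀ j, Ω' j ⊆ Ω (f j))
    {u : ι → E → V} (h : B0 Ω u) : B0 Ω' fun j => u (f j) :=
  h.imp fun _ hC j x hx => hC (f j) x (hf j hx)

theorem BD.reindex {ι' : Type} {Ω' : ι' → Set E} (f : ι' → ι) (hf : ∀ j, Ω' j ⊆ Ω (f j)) :
    ∀ {k : ℕ} {u : ι → E → V}, BD Ω A k u → BD Ω' (fun j => A (f j)) k fun j => u (f j)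
  | 0, _, h => B0.reindex f hf h
  | _ + 1, _, h => ⟨h.1.reindex f hf, fun v => BD.reindex f hf (h.2 v)⟩

theorem BC.reindex {ι' : Type} {Ω' : ι' → Set E} (f : ι' → ι) (hf : ∀ j, Ω' j ⊆ Ω (f j)) :
    ∀ {k : ℕ} {u : ι → E → V}, BC Ω k u → BC Ω' k fun j => u (f j)
  | 0, _, h => B0.reindex f hf h
  | _ + 1, _, h => ⟨h.1.reindex f hf, fun v => BC.reindex f hf (h.2 v)⟩

theorem Sm.reindex {ι' : Type} {Ω' : ι' → Set E} (f : ι' → ι) (hf : ∀ j, Ω' j ⊆ Ω (f j))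
    {u : ι → E → V} (h : Sm Ω u) : Sm Ω' fun j => u (f j) := fun j x hx => h (f j) x (hf j hx)

/-! ### the radial equation on star shaped sets -/

/-- `Ω i` is star shaped about `p i` -/
def Star (Ω : ι → Set E) (p : ι → E) : Prop :=
  ∀ i, ∀ x ∈ Ω i, ∀ t ∈ Icc (0 : ℝ) 1, p i + t • (x - p i) ∈ Ω i

theorem b0_of_radial {p : ι → E} (hs : Star Ω p) {φ : ι → E → V} (s : Sm Ω φ) (m : ℕ)
    (h : B0 Ω fun i x => ((m : ℝ) + 1) • φ i x + fderiv ℝ (φ i) x (x - p i)) : B0 Ω φ := by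
  obtain ⟨C, hC⟩ := h
  refine ⟨C, fun i x hx => ?_⟩
  have key : ∀ t ∈ Icc (0 : ℝ) 1, HasDerivWithinAt
      (fun t : ℝ => t ^ (m + 1) • φ i (p i + t • (x - p i)))
      (t ^ m • (((m : ℝ) + 1) • φ i (p i + t • (x - p i)) +
        fderiv ℝ (φ i) (p i + t • (x - p i)) (p i + t • (x - p i) - p i))) (Icc 0 1) t := by
    intro t ht
    have h1 : HasDerivAt (fun t : ℝ => p i + t • (x - p i)) (x - p i) t := by
      simpa using ((hasDerivAt_id t).smul_const (x - p i)).const_add (p i)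
    have h2 := (s.da (hs i x hx t ht)).hasFDerivAt.comp_hasDerivAt t h1
    refine ((hasDerivAt_pow (m + 1) t).smul h2).hasDerivWithinAt.congr_deriv ?_
    simp only [Function.comp, add_sub_cancel_left, map_smul, smul_add, smul_smul,
      Nat.add_sub_cancel, Nat.cast_add, Nat.cast_one]
    rw [add_comm, mul_comm (t ^ m) ((m : ℝ) + 1), pow_succ]
  have := norm_image_sub_le_of_norm_deriv_le_segment_01' (C := C) key fun t ht => by
    have h0 := hC i _ (hs i x hx t (Ico_subset_Icc_self ht))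
    rw [norm_smul, norm_pow, Real.norm_of_nonneg ht.1]
    exact (mul_le_of_le_one_left (norm_nonneg _) (pow_le_one₀ ht.1 ht.2.le)).trans h0
  simpa using this

theorem bc_of_radial (ho : ∀ i, IsOpen (Ω i)) {p : ι → E} (hs : Star Ω p) :
    ∀ (k m : ℕ) {φ : ι → E → V}, Sm Ω φ →
      (BC Ω k fun i x => ((m : ℝ) + 1) • φ i x + fderiv ℝ (φ i) x (x - p i)) → BC Ω k φ
  | 0, m, _, s, h => b0_of_radial hs s m h
  | k + 1, m, φ, s, h => ⟨b0_of_radial hs s m h.1, fun v => by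
      refine bc_of_radial ho hs k (m + 1) (s.pd v) ((h.2 v).congr ho fun i x hx => ?_)
      have d1 := (s.da hx).hasFDerivAt
      have d2 := (s.fderiv.da hx).hasFDerivAt
      have e1 := ((d1.const_smul ((m : ℝ) + 1)).add
        (d2.clm_apply ((hasFDerivAt_id x).sub_const (p i)))).fderiv
      have e2 := (d2.clm_apply (hasFDerivAt_const v x)).fderiv
      have sy := (s.symm hx) v (x - p i)
      refine Eq.trans ?_ (congrArg (fun T : E →L[ℝ] V => T v) e1).symm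
      rw [e2]
      simp [sy, add_smul, add_assoc, -map_sub]⟩

end Crest.Agent.X212.Eps63

end
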