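import Crest.Agent.X212.Eps63.Pf
import Crest.Agent.X212.Th31.E3

/-!
# Row 212, AN (helper63): DEC, all jets are bounded at a puncture
-/

set_option autoImplicit false
set_option linter.unusedSectionVars false
open Set Filter Topology Function MeasureTheory Metric
open scoped ContDiff Manifold InnerProductSpace NNReal ENNReal

noncomputable section
namespace Crest.Agent.X212.Eps63

open Cmp73
open An (Sm)
open Sob92 (dv)
open Mp86 (Lop)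
open Wz78 (nab)
open Th31 (fs)

variable {E : Type} [NormedAddCommGroup E] [NormedSpace ℝ E] {HM : Type} [TopologicalSpace HM]
  {I : ModelWithCorners ℝ E HM} {ι : Type} [Fintype ι]
  {E' : Type} [NormedAddCommGroup E'] [NormedSpace ℝ E']
  {α : Type} {l : Filter α} {z₀ : E'}
  {X : α → Type} [∀ n, TopologicalSpace (X n)] [∀ n, ChartedSpace HM (X n)]
  [∀ n, IsManifold I ∞ (X n)] [∀ n, MeasurableSpace (X n)]
  {b : Fb I ι X} {L : Sy ι X} {κ : ∀ n, OpenPartialHomeomorph (X n) E'}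

/-- the scalar inequalities of a consistent system that are used here -/
structure Ine (b : Fb I ι X) (L : Sy ι X) : Prop where
  sm : ∀ r n, Sm I (b.H L 3 1 r n)
  e4 : ∀ r n x, ∑ a, dv I (b.e n a) (b.H L 3 1 r n) x ^ 2 ≤
    4 * b.H L 3 1 r n x * (b.H L 3 1 (r + 1) n x - b.H L 3 1 0 n x)
  e2 : ∀ r R, ∃ K, ∀ᶠ q in b.F, b.H L 3 1 r q.1 q.2 ≤ R →
    2 * b.H L 3 1 (r + 2) q.1 q.2 - K * (1 + √(b.H L 3 1 (r + 1) q.1 q.2)) *
      ((1 + √(b.H L 3 1 (r + 1) q.1 q.2)) ^ 2 + √(b.H L 3 1 (r + 2) q.1 q.2)) ≤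
      Lop I (b.e q.1) 0 (b.H L 3 1 (r + 1) q.1) q.2

theorem one_le_tau {z : E'} (h : 0 < ‖z - z₀‖ ∧ ‖z - z₀‖ ≤ 1) : 1 ≤ tau z₀ z :=
  (one_le_inv₀ (by linarith [h.1])).2 (by linarith [h.2])

theorem tau_mul {z : E'} (h : 0 < ‖z - z₀‖) : tau z₀ z * (‖z - z₀‖ / 2) = 1 :=
  inv_mul_cancel₀ (by linarith)

theorem abs_le_of_sum {f : ι → ℝ} {c : ℝ} (c0 : 0 ≤ c) (h : ∑ a, f a ^ 2 ≤ c ^ 2) (a : ι) :
    |f a| ≤ c := abs_le.2 (abs_le_of_sq_le_sq' ((Finset.single_le_sum (f := fun a => f a ^ 2)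
      (fun _ _ => sq_nonneg _) (Finset.mem_univ a)).trans h) c0)

theorem step0 (P : Pun b L κ l z₀) (hE : Eps b L κ (gB l z₀)) : ∃ C, ∀ᶠ p in pF l z₀,
    b.H L 3 (√(‖p.2 - z₀‖ / 2))⁻¹ 1 p.1 ((κ p.1).symm p.2) ≤ C := by
  obtain ⟨ε, ε0, C, h⟩ := hE
  exact ⟨C, (ev_B.1 (h.and (P.en ε ε0))).mono fun p hp => hp.1 hp.2⟩

/-- the conclusion of `Kat` at the natural scale -/
def KatN (b : Fb I ι X) (L : Sy ι X) (κ : ∀ n, OpenPartialHomeomorph (X n) E') (z₀ : E')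
    (h : ∀ n, X n → ℝ) (k C : ℝ) (p : α × E') : Prop :=
  ∃ G ν : ℝ, 0 ≤ G ∧ 0 ≤ ν ∧ ν ≤ C * tau z₀ p.2 ^ 3 ∧ ν ≤ C + (tau z₀ p.2 ^ 2 + fs L true p.1 ((κ p.1).symm p.2)) ∧
    h p.1 ((κ p.1).symm p.2) ≤ C * tau z₀ p.2 ^ 4 ∧ G ≤ C * tau z₀ p.2 ^ 6 ∧
    h p.1 ((κ p.1).symm p.2) ≤ C * (b.en p.1 ((κ p.1).symm p.2) + tau z₀ p.2 ^ 3) ∧
    b.en p.1 ((κ p.1).symm p.2) ≤ C * (h p.1 ((κ p.1).symm p.2) + tau z₀ p.2 ^ 3) ∧
    2 * G - C * √(h p.1 ((κ p.1).symm p.2)) * (h p.1 ((κ p.1).symm p.2) + √G + tau z₀ p.2 ^ 3 +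
      √(tau z₀ p.2 ^ 5 * ν)) ≤ Lop I (b.e p.1) 0 (h p.1) ((κ p.1).symm p.2) ∧
    ∑ a, dv I (b.e p.1 a) (h p.1) ((κ p.1).symm p.2) ^ 2 ≤ 4 * k * h p.1 ((κ p.1).symm p.2) * G +
      C * h p.1 ((κ p.1).symm p.2) * (h p.1 ((κ p.1).symm p.2) + tau z₀ p.2 ^ 3 + ν ^ 2)

theorem one_le_mu {z : E'} (h3 : 0 < ‖z - z₀‖ ∧ ‖z - z₀‖ ≤ 1) : 1 ≤ (√(‖z - z₀‖ / 2))⁻¹ := by
  refine (one_le_inv₀ (Real.sqrt_pos.2 (by linarith [h3.1]))).2 (Real.sqrt_le_one.2 ?_)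
  linarith [h3.2]

/-- `Kat` at the natural scale -/
theorem step1 (P : Pun b L κ l z₀) (hE : Eps b L κ (gB l z₀)) : ∃ (h : ∀ n, X n → ℝ) (k C : ℝ),
    (∀ n, Sm I (h n)) ∧ (∀ n x, 0 ≤ h n x) ∧ 0 ≤ k ∧ k < 1 ∧ 0 < C ∧
      ∀ᶠ p in pF l z₀, KatN b L κ z₀ h k C p := by
  obtain ⟨C0, h0⟩ := step0 P hE
  obtain ⟨e0, h, sh, h0', k, k1, G, G0, hK⟩ := P.kat
  obtain ⟨C, hC⟩ := hK C0
  refine ⟨h, max k 0, max C (2 * |C0| + 1), sh, h0', le_max_right _ _, max_lt k1 one_pos,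
    lt_max_of_lt_right (by positivity), ?_⟩
  filter_upwards [(ev_F P).1 hC, h0, pF_small one_pos] with p h1 h2 h3
  have t1 := one_le_tau h3
  have m1 := one_le_mu h3
  obtain ⟨a1, a2, a5, a6, a3, a4⟩ := h1 _ m1 h2
  have b1 := (b.H_mono L 3 _ 0 _ _).trans (h2.trans (le_abs_self _))
  have b2 := b.H_nonneg L 0 (√(‖p.2 - z₀‖ / 2))⁻¹ 0 p.1 ((κ p.1).symm p.2)
  have b3 := Th31.H0_eq (b := b) (L := L) 0 (√(‖p.2 - z₀‖ / 2))⁻¹ p.1 ((κ p.1).symm p.2)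
  have b4 : (√(‖p.2 - z₀‖ / 2))⁻¹ ^ 5 = √(tau z₀ p.2 ^ 5) := by
    rw [← mu_pow, mul_comm 2, pow_mul, Real.sqrt_sq (by positivity)]
  rw [Th31.H0_eq, ← pow_mul _ 3, mul_comm 3, mu_pow] at b1
  rw [show 8 = 2 * 4 from rfl, mu_pow] at a1
  rw [show 12 = 2 * 6 from rfl, mu_pow] at a2
  rw [show 6 = 2 * 3 from rfl, mu_pow] at a3 a4 a5 a6
  rw [b4, ← Real.sqrt_mul (by positivity)] at a3
  have b7 : (√(‖p.2 - z₀‖ / 2))⁻¹ ^ 4 = tau z₀ p.2 ^ 2 := mu_pow _ 2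
  rw [b7] at a3 a4
  simp only [pow_zero, one_pow, inv_one, one_mul] at b3
  have f0 := Th31.fs_nonneg (L := L) false p.1 ((κ p.1).symm p.2)
  have f1 := Th31.fs_nonneg (L := L) true p.1 ((κ p.1).symm p.2)
  have b5 : 0 ≤ (tau z₀ p.2 ^ 3)⁻¹ * fs L true p.1 ((κ p.1).symm p.2) := by positivity
  have b6 : fs L true p.1 ((κ p.1).symm p.2) ≤ |C0| * tau z₀ p.2 ^ 3 := by
    rw [mul_comm, ← inv_mul_le_iff₀ (by positivity)]
    exact le_trans (le_add_of_nonneg_left (by positivity)) b1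
  have b8 : b.H L 0 (√(‖p.2 - z₀‖ / 2))⁻¹ 0 p.1 ((κ p.1).symm p.2) ≤
      |C0| + fs L true p.1 ((κ p.1).symm p.2) :=
    b3.trans_le (add_le_add_left (le_trans (le_add_of_nonneg_right b5) b1) _)
  clear b1 b3 b4 b5 b7 h1 h2 m1
  generalize b.H L 0 (√(‖p.2 - z₀‖ / 2))⁻¹ 0 p.1 ((κ p.1).symm p.2) = H0 at *
  have c1 := le_max_left C (2 * |C0| + 1)
  have c3 := le_max_right C (2 * |C0| + 1)
  have c2 := le_max_left k 0
  have c4 := abs_nonneg C0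
  have n0 := e0 p.1 ((κ p.1).symm p.2)
  have n1 := G0 p.1 ((κ p.1).symm p.2)
  have n2 := h0' p.1 ((κ p.1).symm p.2)
  refine ⟨_, tau z₀ p.2 ^ 2 + H0, n1, add_nonneg (sq_nonneg _) b2, ?_, by linarith, a1.trans (by gcongr), a2.trans (by gcongr),
    a5.trans (by gcongr), a6.trans (by gcongr), le_trans (by gcongr) a3, a4.trans (by gcongr)⟩
  nlinarith [mul_le_mul_of_nonneg_left (one_le_pow₀ (n := 3) t1) c4,
    mul_le_mul_of_nonneg_right c3 (pow_nonneg (tau_nonneg (z₀ := z₀) p.2) 3),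
    pow_le_pow_right₀ t1 (show 2 ≤ 3 by norm_num)]

variable [∀ n, OpensMeasurableSpace (X n)]

theorem step2 (P : Pun b L κ l z₀) {h : ∀ n, X n → ℝ} {k C : ℝ} (sh : ∀ n, Sm I (h n))
    (h0 : ∀ n x, 0 ≤ h n x) (k1 : k < 1) (C0 : 0 < C) (hK : ∀ᶠ p in pF l z₀, KatN b L κ z₀ h k C p)
    {ε : ℝ} (ε0 : 0 < ε) : ∀ᶠ p in pF l z₀, h p.1 ((κ p.1).symm p.2) ≤ ε * tau z₀ p.2 ^ 4 := by
  obtain ⟨B, K, B0, B1, K0, hB⟩ := pun_low P sh (A := 5 * C ^ 2 + C ^ 3 + C ^ 4 + 1) (by positivity)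
    (by
      filter_upwards [hK, pF_small one_pos] with p ⟨G, ν, G0, ν0, ν1, _, a1, a2, _, _, _, a4⟩ h3
      have t1 := one_le_tau h3
      have n0 := h0 p.1 ((κ p.1).symm p.2)
      refine abs_le_of_sum (by positivity) (a4.trans ?_)
      set τ := tau z₀ p.2
      have t3 : τ ^ 3 ≤ τ ^ 6 := pow_le_pow_right₀ t1 (by norm_num)
      have t4 : τ ^ 4 ≤ τ ^ 6 := pow_le_pow_right₀ t1 (by norm_num)
      calc _ ≤ 4 * 1 * (C * τ ^ 4) * (C * τ ^ 6) +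
            C * (C * τ ^ 4) * (C * τ ^ 6 + τ ^ 6 + (C * τ ^ 3) ^ 2) := by
            gcongr
            exact a1.trans (by gcongr)
        _ = (5 * C ^ 2 + C ^ 3 + C ^ 4) * (τ ^ 5) ^ 2 := by ring
        _ ≤ (5 * C ^ 2 + C ^ 3 + C ^ 4 + 1) ^ 2 * (τ ^ 5) ^ 2 := by
            gcongr
            nlinarith [(by positivity : 0 ≤ 5 * C ^ 2 + C ^ 3 + C ^ 4)]
        _ = _ := by ring) ε
  set s := ε / (2 * B) with hs
  have s0 : 0 < s := by positivity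
  have s1 : s ≤ 1 := by rw [hs, div_le_one (by positivity)]; linarith
  have c0 : 0 < ε / (8 * C) * s ^ 4 / K := by positivity
  filter_upwards [hB, ev_B.1 (P.en (Real.toNNReal (ε / (8 * C) * s ^ 4 / K)) (Real.toNNReal_pos.2 c0)),
    pF_small one_pos, pF_ball hK, pF_small (δ := ε / (16 * C)) (by positivity)] with p h1 h2 h3 h5 h6
  by_contra! hc
  have tm := tau_mul h3.1
  have tb := fun y hy => pow_le_pow_left₀ (tau_nonneg y) (tau_ball (y := y) h3.1 hy) 3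
  set τ := tau z₀ p.2
  set ρ := ‖p.2 - z₀‖ / 2 with hρ
  have ρ0 : 0 < ρ := by linarith [h3.1]
  have τ0 : 0 < τ := by
    by_contra! hn
    nlinarith
  have := (h1 (s * ρ) (by positivity) (mul_le_of_le_one_left ρ0.le s1)
    (fun x => ENNReal.ofReal (b.en p.1 x)) (ENNReal.ofReal (ε / (4 * C) * τ ^ 4)) _ Subset.rfl
    fun y hy hx => ENNReal.ofReal_le_ofReal (by
      have e : B * τ ^ 5 * (s * ρ) = ε / 2 * τ ^ 4 * (τ * ρ) := by rw [hs]; field_simp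
      rw [e, tm] at hx
      obtain ⟨-, -, -, -, -, -, -, -, a5, -⟩ := h5 y hy
      have c1 : 32 * C * ρ ≤ ε := by
        have := (le_div_iff₀ (by positivity)).1 h6.2; rw [hρ]; linarith
      have c2 : 32 * C * τ ^ 3 ≤ ε * τ ^ 4 := by
        calc _ = 32 * C * ρ * τ ^ 4 := by
              linear_combination (-32 * C * τ ^ 3) * tm
          _ ≤ _ := by gcongr
      rw [div_mul_eq_mul_div, div_le_iff₀ (by positivity)]
      nlinarith [mul_le_mul_of_nonneg_left (tb y hy) C0.le])).trans h2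
  rw [← ENNReal.ofReal_mul (by positivity)] at this
  have h4 := (ENNReal.ofReal_le_ofReal_iff c0.le).1 this
  have e : ε / (4 * C) * τ ^ 4 * ((s * ρ) ^ 4 / K) = 2 * (ε / (8 * C) * s ^ 4 / K) * (τ * ρ) ^ 4 := by
    field_simp; norm_num
  rw [e, tm] at h4
  linarith

theorem fld_le (i : L.κ) (μ : ℝ) (r : ℕ) (n : α) (x : X n) :
    ((μ ^ (L.f i).d 3) ^ 2)⁻¹ * hs I (b.e n) ((L.f i).A n) μ r ((L.f i).s n) x ≤ b.H L 3 μ r n x :=
  Finset.single_le_sum (f := fun i => ((μ ^ (L.f i).d 3) ^ 2)⁻¹ *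
    hs I (b.e n) ((L.f i).A n) μ r ((L.f i).s n) x)
    (fun _ _ => mul_nonneg (by positivity) (hs_nonneg _ _ _)) (Finset.mem_univ i)

/-- the one-jet of a field at the natural scale -/
theorem step3 (P : Pun b L κ l z₀) (hE : Eps b L κ (gB l z₀)) (i : L.κ) : ∃ C, 0 ≤ C ∧
    ∀ᶠ p in pF l z₀, ‖(L.f i).s p.1 ((κ p.1).symm p.2)‖ ^ 2 ≤ C * tau z₀ p.2 ^ (L.f i).d 3 ∧
      ∀ a, ‖nab I (b.e p.1) ((L.f i).A p.1) a ((L.f i).s p.1) ((κ p.1).symm p.2)‖ ^ 2 ≤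
        C * tau z₀ p.2 ^ ((L.f i).d 3 + 2) := by
  obtain ⟨C, h⟩ := step0 P hE
  refine ⟨max C 0, le_max_right _ _, ?_⟩
  filter_upwards [h, pF_small one_pos] with p h1 h3
  have t1 := one_le_tau h3
  have h2 := (fld_le i _ 1 p.1 _).trans (h1.trans (le_max_left C 0))
  rw [← pow_mul, mul_comm _ 2, mu_pow, inv_mul_le_iff₀ (by positivity), hs,
    show 4 = 2 * 2 from rfl, mu_pow] at h2
  simp only [hs] at h2
  have n1 : ∀ a, ‖nab I (b.e p.1) ((L.f i).A p.1) a ((L.f i).s p.1) ((κ p.1).symm p.2)‖ ^ 2 ≤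
      ∑ a, ‖nab I (b.e p.1) ((L.f i).A p.1) a ((L.f i).s p.1) ((κ p.1).symm p.2)‖ ^ 2 := fun a =>
    Finset.single_le_sum (f := fun a =>
      ‖nab I (b.e p.1) ((L.f i).A p.1) a ((L.f i).s p.1) ((κ p.1).symm p.2)‖ ^ 2)
      (fun _ _ => sq_nonneg _) (Finset.mem_univ a)
  refine ⟨le_trans (le_add_of_nonneg_right (by positivity)) (h2.trans_eq (mul_comm _ _)),
    fun a => (n1 a).trans ?_⟩
  have h4 := le_trans (le_add_of_nonneg_left (sq_nonneg _)) h2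
  rw [inv_mul_le_iff₀ (by positivity)] at h4
  exact h4.trans_eq (by ring)

/-- fields bounded in `L⁴` -/
theorem step4 (P : Pun b L κ l z₀) (hE : Eps b L κ (gB l z₀)) (i : L.κ) (ht : (L.f i).t = false)
    (h4 : b.L4 (L.f i).s) : ∃ C, 0 ≤ C ∧ ∀ᶠ p in pF l z₀,
      (‖(L.f i).s p.1 ((κ p.1).symm p.2)‖ ^ 2) ^ 6 ≤ C * tau z₀ p.2 ^ 20 := by
  obtain ⟨C, C0, h⟩ := step3 P hE i
  have ok := P.cons.ok i
  have hd : (L.f i).d 3 = 4 := by simp [Fld.d, ht]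
  rw [hd] at h
  obtain ⟨C4, D, hD, h4⟩ := h4
  obtain ⟨B, K, B0, B1, K0, hB⟩ := pun_low P (f := fun n x => ⟪(L.f i).s n x, (L.f i).s n x⟫_ℝ)
    (fun n x => by simpa only [real_inner_self_eq_norm_sq] using Mp86.cm_normSq (ok.sm n x)) (A := 2 * C) (by positivity)
    (by
      filter_upwards [h] with p ⟨a1, a2⟩ a
      have t0 := tau_nonneg (z₀ := z₀) p.2
      have m := (ok.sm p.1 ((κ p.1).symm p.2)).mdifferentiableAt (by simp)
      rw [Mp86.dv_inner_cd (A := (L.f i).A p.1 a) (ok.sk _ _ _) m m, real_inner_comm, ← two_mul,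
        abs_mul, abs_two, mul_assoc]
      refine mul_le_mul_of_nonneg_left ((abs_real_inner_le_norm _ _).trans
        (abs_le_of_sq_le_sq' ?_ (by positivity)).2) zero_le_two
      rw [mul_pow]
      refine (mul_le_mul a1 (a2 a) (sq_nonneg _) (by positivity)).trans_eq (by ring)) C
  refine ⟨4 * (2 * B) ^ 4 * K * C4, by positivity, ?_⟩
  filter_upwards [hB, h, ev_B.1 (P.bl.sub D hD), pF_small one_pos] with p h1 h2 h5 h3
  have tm := tau_mul h3.1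
  have t1 := one_le_tau h3
  simp only [real_inner_self_eq_norm_sq] at h1
  set τ := tau z₀ p.2
  set ρ := ‖p.2 - z₀‖ / 2 with hρ
  set m := ‖(L.f i).s p.1 ((κ p.1).symm p.2)‖ ^ 2 with hm
  have τ0 : 0 < τ := by linarith
  have m1 : 0 ≤ m := sq_nonneg _
  rcases m1.eq_or_lt with m0 | m0
  · rw [← m0, zero_pow (by norm_num)]; positivity
  have := (h1 (m / (2 * B * τ ^ 5)) (by positivity) (by
      rw [div_le_iff₀ (by positivity)]
      have e : ρ * (2 * B * τ ^ 5) = 2 * B * τ ^ 4 * (τ * ρ) := by ring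
      rw [e, tm]
      nlinarith [h2.1, mul_le_mul_of_nonneg_right B1 (by positivity : 0 ≤ τ ^ 4)])
    (fun x => ‖(L.f i).s p.1 x‖ₑ ^ 4) (ENNReal.ofReal ((m / 2) ^ 2)) (Sigma.mk p.1 ⁻¹' D)
    (by rintro _ ⟨y, hy, rfl⟩; exact h5 y hy) fun x _ hx => by
      have e : B * τ ^ 5 * (m / (2 * B * τ ^ 5)) = m / 2 := by field_simp
      rw [e] at hx
      rw [← ofReal_norm, ← ENNReal.ofReal_pow (norm_nonneg _),
        show 4 = 2 * 2 from rfl, pow_mul]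
      exact ENNReal.ofReal_le_ofReal (pow_le_pow_left₀ (by positivity) (by linarith) 2)).trans
      (h4 p.1)
  rw [← ENNReal.ofReal_mul (by positivity), ← ENNReal.ofReal_coe_nnreal] at this
  have h6 : _ ≤ (C4 : ℝ) := (ENNReal.ofReal_le_ofReal_iff C4.2).1 this
  have e : (m / 2) ^ 2 * ((m / (2 * B * τ ^ 5)) ^ 4 / K) =
      m ^ 6 / (4 * (2 * B) ^ 4 * K * τ ^ 20) := by field_simp; norm_num
  rw [e, div_le_iff₀ (by positivity)] at h6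
  exact h6.trans_eq (by ring)

theorem rp_pow {q : ℝ} (h : 0 < q) (k : ℕ) : (q ^ (-(1 / 12) : ℝ)) ^ k = q ^ (-(k / 12) : ℝ) := by
  rw [← Real.rpow_natCast, ← Real.rpow_mul h.le]; congr 1; ring

/-- comparison of `tau` with powers of `Q` -/
theorem tau_Q {Q : E' → ℝ} {K : ℝ} (K0 : 0 < K)
    (hQ : ∀ z, ‖z - z₀‖ ^ 2 ≤ K * Q z ∧ Q z ≤ K * ‖z - z₀‖ ^ 2) :
    ∀ᶠ p in pF l z₀, 0 < Q p.2 ∧ 1 ≤ Q p.2 ^ (-(1 / 12) : ℝ) ∧ tau z₀ p.2 ^ 2 * Q p.2 ≤ 4 * K ∧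
      tau z₀ p.2 ≤ (1 + 4 * K) * (Q p.2 ^ (-(1 / 12) : ℝ)) ^ 6 := by
  filter_upwards [pF_small (δ := √(1 / K)) (by positivity)] with p h
  have q0 : 0 < Q p.2 := by
    by_contra! hn
    nlinarith [(hQ p.2).1, pow_pos h.1 2]
  have q1 : Q p.2 ≤ 1 := (hQ p.2).2.trans (by
    rw [mul_comm, ← le_div_iff₀ K0]
    exact (Real.le_sqrt (norm_nonneg _) (by positivity)).1 h.2)
  have tm := tau_mul h.1
  have t2 : tau z₀ p.2 ^ 2 * Q p.2 ≤ 4 * K := by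
    calc _ ≤ tau z₀ p.2 ^ 2 * (K * ‖p.2 - z₀‖ ^ 2) := by gcongr; exact (hQ p.2).2
      _ = 4 * K * (tau z₀ p.2 * (‖p.2 - z₀‖ / 2)) ^ 2 := by ring
      _ = _ := by rw [tm]; ring
  refine ⟨q0, Real.one_le_rpow_of_pos_of_le_one_of_nonpos q0 q1 (by norm_num), t2,
    (abs_le_of_sq_le_sq' ?_ (by positivity)).2⟩
  rw [mul_pow, ← pow_mul, rp_pow q0, show (-(((6 * 2 : ℕ) : ℝ) / 12)) = -1 by norm_num,
    Real.rpow_neg_one, ← div_eq_mul_inv, le_div_iff₀ q0]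
  nlinarith

theorem root {x C τ A ϑ : ℝ} {k j m : ℕ} (hk : k ≠ 0) (h : x ^ k ≤ C * τ ^ j) (C0 : 0 ≤ C) (τ0 : 0 ≤ τ)
    (A0 : 0 ≤ A) (hτ : τ ≤ A * ϑ ^ 6) (ϑ1 : 1 ≤ ϑ) (e : 6 * j ≤ m * k) : x ≤ (C * A ^ j + 1) * ϑ ^ m := by
  have u : 1 ≤ C * A ^ j + 1 := le_add_of_nonneg_left (by positivity)
  refine le_of_pow_le_pow_left₀ hk (by positivity) (h.trans ?_)
  calc _ ≤ C * (A * ϑ ^ 6) ^ j := by gcongr
    _ = C * A ^ j * ϑ ^ (6 * j) := by rw [mul_pow, ← pow_mul, mul_assoc]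
    _ ≤ (C * A ^ j + 1) ^ k * ϑ ^ (m * k) := by
        gcongr
        exact (le_add_of_nonneg_right zero_le_one).trans (le_self_pow₀ u hk)
    _ = _ := by rw [mul_pow, ← pow_mul]

theorem hb_arith {τ ϑ A C C₁ G ν h D k L g : ℝ} (τ0 : 0 ≤ τ) (ϑ1 : 1 ≤ ϑ) (A0 : 0 ≤ A) (C0 : 0 ≤ C)
    (C1 : 0 ≤ C₁) (G0 : 0 ≤ G) (ν0 : 0 ≤ ν) (hτ : τ ≤ A * ϑ ^ 6) (hν : ν ≤ C + C₁ * ϑ ^ 16)
    (hl : ϑ ^ 23 ≤ h) (hD : D = A ^ 5 * (C + C₁) + (C + C₁) ^ 2 + A ^ 3 + 2)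
    (a3 : 2 * G - C * √h * (h + √G + τ ^ 3 + √(τ ^ 5 * ν)) ≤ L)
    (a4 : g ≤ 4 * k * h * G + C * h * (h + τ ^ 3 + ν ^ 2)) :
    ∃ G W : ℝ, 0 ≤ G ∧ W ^ 2 ≤ (C * D + C ^ 2) * (1 + √h) ∧
      2 * G - (C * D + C ^ 2) * √h * (ϑ ^ 23 + √h + h) - W * √h * √G ≤ L ∧
      g ≤ 4 * k * h * G + (C * D + C ^ 2) * h * (ϑ ^ 23 + h + h * √h) := by
  have w0 : 0 ≤ ϑ := by linarith
  have h0 : 0 ≤ h := le_trans (by positivity) hl
  have r0 := Real.sqrt_nonneg h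
  have n1 : ν ≤ (C + C₁) * ϑ ^ 16 := by nlinarith [one_le_pow₀ (n := 16) ϑ1]
  have t3 : τ ^ 3 ≤ A ^ 3 * ϑ ^ 23 := by
    calc _ ≤ (A * ϑ ^ 6) ^ 3 := by gcongr
      _ = A ^ 3 * ϑ ^ 18 := by ring
      _ ≤ _ := by gcongr; norm_num
  have t5 : √(τ ^ 5 * ν) ≤ (A ^ 5 * (C + C₁) + 1) * ϑ ^ 23 := by
    refine Real.sqrt_le_iff.2 ⟨by positivity, ?_⟩
    have : 0 ≤ A ^ 5 * (C + C₁) := by positivity
    calc _ ≤ (A * ϑ ^ 6) ^ 5 * ((C + C₁) * ϑ ^ 16) := by gcongr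
      _ = A ^ 5 * (C + C₁) * (ϑ ^ 23) ^ 2 := by ring
      _ ≤ (A ^ 5 * (C + C₁) + 1) ^ 2 * (ϑ ^ 23) ^ 2 := by gcongr; nlinarith
      _ = _ := by ring
  have n2 : ν ^ 2 ≤ (C + C₁) ^ 2 * (h * √h) := by
    have : ϑ ^ 9 ≤ √h := Real.le_sqrt_of_sq_le (le_trans (by
      rw [← pow_mul]; exact pow_le_pow_right₀ ϑ1 (by norm_num)) hl)
    calc _ ≤ ((C + C₁) * ϑ ^ 16) ^ 2 := by gcongr
      _ = (C + C₁) ^ 2 * (ϑ ^ 23 * ϑ ^ 9) := by ring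
      _ ≤ _ := by gcongr
  have p1 : 0 ≤ A ^ 5 * (C + C₁) := by positivity
  have p2 := sq_nonneg (C + C₁)
  have p3 := pow_nonneg A0 3
  have p4 := pow_nonneg w0 23
  have p5 := mul_nonneg h0 r0
  have D1 : 1 ≤ D := by linarith
  have e1 : h + τ ^ 3 + √(τ ^ 5 * ν) ≤ (D + C) * (ϑ ^ 23 + √h + h) := by
    have : (A ^ 3 + (A ^ 5 * (C + C₁) + 1)) * ϑ ^ 23 ≤ (D + C) * ϑ ^ 23 :=
      mul_le_mul_of_nonneg_right (by linarith) p4
    nlinarith [mul_le_mul_of_nonneg_right (show 1 ≤ D + C by linarith) h0,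
      mul_nonneg (show 0 ≤ D + C by linarith) r0]
  have e2 : h + τ ^ 3 + ν ^ 2 ≤ (D + C) * (ϑ ^ 23 + h + h * √h) := by
    have c1 : A ^ 3 * ϑ ^ 23 ≤ (D + C) * ϑ ^ 23 := by gcongr; linarith
    have c2 : (C + C₁) ^ 2 * (h * √h) ≤ (D + C) * (h * √h) := by gcongr; linarith
    nlinarith [mul_le_mul_of_nonneg_right (show 1 ≤ D + C by linarith) h0]
  refine ⟨G, C, G0, ?_, le_trans ?_ a3, a4.trans ?_⟩
  · nlinarith [mul_nonneg C0 (zero_le_one.trans D1), mul_nonneg (add_nonneg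
      (mul_nonneg C0 (zero_le_one.trans D1)) (sq_nonneg C)) r0]
  · linarith [mul_le_mul_of_nonneg_left e1 (mul_nonneg C0 r0)]
  · linarith [mul_le_mul_of_nonneg_left e2 (mul_nonneg C0 h0)]

variable [CompleteSpace E] [∀ n, BoundarylessManifold I (X n)] [FiniteDimensional ℝ E']

/-- derivatives of bounded sections -/
theorem step5 (P : Pun b L κ l z₀) (hE : Eps b L κ (gB l z₀)) (i : L.κ) : ∃ C, 0 ≤ C ∧
    ∀ᶠ p in pF l z₀, (L.f i).t = true →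
      (‖(L.f i).s p.1 ((κ p.1).symm p.2)‖ ^ 2) ^ 3 ≤ C * tau z₀ p.2 ^ 8 := by
  have ok := P.cons.ok i
  rcases ok.kind with ⟨ht, -⟩ | ⟨ht, w, a, sw, ⟨W, hW⟩, hk⟩
  · exact ⟨0, le_rfl, .of_forall fun p h => by simp [ht] at h⟩
  have := FiniteDimensional.proper_real E'
  obtain ⟨φ, B, hφ⟩ := Shi84.exists_bmp E'
  obtain ⟨K, K0, hK⟩ := P.bl.ch
  obtain ⟨C, C0, h⟩ := step3 P hE i
  rw [show (L.f i).d 3 = 3 by simp [Fld.d, ht]] at h
  have B0 := hφ.nn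
  refine ⟨_, ?_, ((ev_B.1 hK).and ((pF_ball h).and ((pF_ball ((ev_F P).1 hW)).and
    (pF_small one_pos)))).mono fun p ⟨h1, h2, h3, h4⟩ _ => hk p.1 ▸ Th31.interp (C := 32 * C) h1.2.2 K0
      (b.frm _).se hφ h1.2.1 (ok.sA _) (ok.sk _) (sw _) a (one_le_tau h4) (tau_mul h4.1)
      (by positivity) h3 (fun y hy => hk p.1 ▸ (h2 y hy).1.trans ?_)
      fun y hy a' => hk p.1 ▸ ((h2 y hy).2 a').trans ?_⟩
  · positivity
  · have := mul_le_mul_of_nonneg_left (pow_le_pow_left₀ (tau_nonneg y) (tau_ball h4.1 hy) 3) C0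
    nlinarith [mul_nonneg C0 (pow_nonneg (tau_nonneg (z₀ := z₀) p.2) 3)]
  · exact (mul_le_mul_of_nonneg_left (pow_le_pow_left₀ (tau_nonneg y) (tau_ball h4.1 hy) 5)
      C0).trans_eq (by ring)

/-- **DEC** from the scalar inequalities -/
theorem dec_of (J : Ine b L) (P : Pun b L κ l z₀) (hB : Bern b L κ (gB l z₀))
    (hE : Eps b L κ (gB l z₀)) : b.JB L := by
  obtain ⟨Q, K, K0, hQ, hA⟩ := pun_ann P
  have tq := tau_Q (l := l) K0 hQ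
  have A0 : 0 ≤ 1 + 4 * K := by positivity
  -- derivatives of bounded sections
  have ft : ∃ C, 0 ≤ C ∧ ∀ᶠ p in pF l z₀, tau z₀ p.2 ^ 2 +
      fs L true p.1 ((κ p.1).symm p.2) ≤ C * (Q p.2 ^ (-(1 / 12) : ℝ)) ^ 16 := by
    choose C C0 hC using step5 P hE
    have c0 : ∀ i, 0 ≤ C i * (1 + 4 * K) ^ 8 + 1 := fun i => by have := C0 i; positivity
    refine ⟨_, add_nonneg (by positivity) (Finset.sum_nonneg fun i _ => c0 i),
      ((eventually_all.2 hC).and tq).mono fun p ⟨h1, q⟩ => (add_le_add (root (k := 1) (j := 2) (C := 1)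
        one_ne_zero (by simp) zero_le_one (tau_nonneg _) A0 q.2.2.2 q.2.1 (by norm_num))
        (Th31.fs_le c0 (pow_nonneg (zero_le_one.trans q.2.1) _) fun i hi => root (by norm_num) (h1 i hi)
          (C0 i) (tau_nonneg _) A0 q.2.2.2 q.2.1 (by norm_num))).trans_eq (add_mul ..).symm⟩
  -- the energy density
  have en : ∃ C, 0 ≤ C ∧ ∀ᶠ p in pF l z₀,
      b.en p.1 ((κ p.1).symm p.2) + tau z₀ p.2 ^ 3 ≤ C * (Q p.2 ^ (-(1 / 12) : ℝ)) ^ 23 := by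
    obtain ⟨h, k, C, sh, h0, k0, k1, C0, hK⟩ := step1 P hE
    obtain ⟨C₁, C1, h1⟩ := ft
    obtain ⟨D, hD⟩ : ∃ D, D = (1 + 4 * K) ^ 5 * (C + C₁) + (C + C₁) ^ 2 + (1 + 4 * K) ^ 3 + 2 := ⟨_, rfl⟩
    have D1 : 1 ≤ D := by
      have : 0 ≤ (1 + 4 * K) ^ 5 * (C + C₁) + (C + C₁) ^ 2 + (1 + 4 * K) ^ 3 := by positivity
      linarith
    obtain ⟨ε, ε0, γ, γ0, hb⟩ := annB.{0, 0, 0, 0} (p := 23 / 12)
      (C := C * D + C ^ 2) k0 k1 (by norm_num) (by norm_num) (by positivity)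
    obtain ⟨d, hd, h2⟩ := hA ε ε0 γ γ0 _ (hK.and (tq.and (h1.and
      (step2 P sh h0 k1 C0 hK (ε := (ε / (4 * K)) ^ 2) (by positivity)))))
    obtain ⟨K', hK'⟩ := hb d hd
    refine ⟨C * max K' 0 + (C + 1) * (1 * (1 + 4 * K) ^ 3 + 1), by positivity, ?_⟩
    filter_upwards [h2, tq, hK] with p ⟨S, d', A, m1, m2, m3, m4⟩ q ⟨_, _, _, _, _, _, _, _, _, a6, _⟩
    have := hK' A (sh p.1).continuous.continuousOn (fun x _ => h0 _ x)
      (fun x hx => ?_) (fun x hx hl => ?_) _ m1 (by rw [m2]; exact m3)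
    · rw [m2, show (-(23 / 12) : ℝ) = -(((23 : ℕ) : ℝ) / 12) by norm_num, ← rp_pow q.1] at this
      have w0 := pow_nonneg (zero_le_one.trans q.2.1) 23
      have t3 := root (k := 1) (j := 3) (m := 23) (x := tau z₀ p.2 ^ 3) (C := 1) one_ne_zero (by simp)
        zero_le_one (tau_nonneg _) A0 q.2.2.2 q.2.1 (by norm_num)
      nlinarith [mul_le_mul_of_nonneg_left (this.trans (mul_le_mul_of_nonneg_right (le_max_left K' 0) w0))
        C0.le, mul_le_mul_of_nonneg_left t3 C0.le]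
    · obtain ⟨z, ⟨-, ⟨q0, -, q2, -⟩, -, h3⟩, rfl, e2⟩ := m4 x hx
      rw [e2]
      have t0 := tau_nonneg (z₀ := z₀) z
      have : √(h p.1 ((κ p.1).symm z)) ≤ ε / (4 * K) * tau z₀ z ^ 2 :=
        (Real.sqrt_le_left (by positivity)).2 (h3.trans_eq (by ring))
      calc _ ≤ ε / (4 * K) * tau z₀ z ^ 2 * Q z := by gcongr
        _ = ε / (4 * K) * (tau z₀ z ^ 2 * Q z) := by ring
        _ ≤ ε / (4 * K) * (4 * K) := by gcongr
        _ = ε := by field_simp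
    · obtain ⟨z, ⟨⟨G, ν, G0, ν0, -, ν2, -, -, -, -, a3, a4⟩, ⟨q0, q1, -, q3⟩, f1, -⟩, rfl, e2⟩ :=
        m4 x (interior_subset hx)
      simp only [e2] at hl ⊢
      rw [show (-(23 / 12) : ℝ) = -(((23 : ℕ) : ℝ) / 12) by norm_num, ← rp_pow q0] at hl ⊢
      exact ⟨(sh p.1 _).of_le Mp86.two_le, hb_arith (tau_nonneg z) q1 A0 C0.le C1 G0 ν0 q3
        (ν2.trans (add_le_add_right f1 _)) hl.le hD a3 a4⟩
  -- the other fields
  have fl : ∀ i, ∃ C, 0 ≤ C ∧ ∀ᶠ p in pF l z₀, (L.f i).t = false →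
      ‖(L.f i).s p.1 ((κ p.1).symm p.2)‖ ^ 2 ≤ C * (Q p.2 ^ (-(1 / 12) : ℝ)) ^ 23 := by
    intro i
    rcases (P.cons.ok i).kind with ⟨ht, h | h⟩ | ⟨ht, -⟩
    · obtain ⟨C, C0, hC⟩ := en
      obtain ⟨R, hR⟩ := step0 P hE
      obtain ⟨C₁, C1, h⟩ := h R
      refine ⟨C₁ * C, by positivity, ?_⟩
      filter_upwards [hC, hR, (ev_F P).1 h, pF_small one_pos] with p h1 h2 h3 h4 _
      have := h3 _ (one_le_mu h4) ((b.H_mono ..).trans h2)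
      rw [show 6 = 2 * 3 from rfl, mu_pow] at this
      exact this.trans ((mul_le_mul_of_nonneg_left h1 C1.le).trans_eq (mul_assoc ..).symm)
    · obtain ⟨C, C0, hC⟩ := step4 P hE i ht h
      exact ⟨C * (1 + 4 * K) ^ 20 + 1, by positivity, (hC.and tq).mono fun p ⟨h1, q⟩ _ =>
        root (by norm_num) h1 C0 (tau_nonneg _) A0 q.2.2.2 q.2.1 (by norm_num)⟩
    · exact ⟨0, le_rfl, .of_forall fun p h => by simp [ht] at h⟩
  -- one application of (A)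
  have stepA : ∀ (f : ∀ n, X n → ℝ) (a C : ℝ), (∀ n, Continuous (f n)) → (∀ n x, 0 ≤ f n x) → 0 ≤ a →
      a < 2 → 0 ≤ C → (∀ᶠ p in pF l z₀, f p.1 ((κ p.1).symm p.2) ≤ C * Q p.2 ^ (-a) ∧
        HA I (b.e p.1) 0 C (f p.1) ((κ p.1).symm p.2)) →
      ∃ R, ∀ᶠ p in pF l z₀, f p.1 ((κ p.1).symm p.2) ≤ R := by
    intro f a C cf f0 a0 a2 C0 h
    obtain ⟨ε, ε0, γ, γ0, hb⟩ := annA.{0, 0, 0, 0} a0 a2 C0
    obtain ⟨d, hd, h2⟩ := hA ε ε0 γ γ0 _ h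
    obtain ⟨K', hK'⟩ := hb d hd
    refine ⟨K', ?_⟩
    filter_upwards [h2] with p ⟨S, d', A, m1, m2, m3, m4⟩
    refine hK' A (cf p.1).continuousOn (fun x _ => f0 ..)
      (fun x hx => ?_) (fun x hx => ?_) _ m1 (by rw [m2]; exact m3)
    · obtain ⟨z, h3, rfl, e2⟩ := m4 x hx
      rw [e2]; exact h3.1
    · obtain ⟨z, h3, rfl, -⟩ := m4 x (interior_subset hx)
      exact h3.2
  have main : ∀ r, ∃ R, ∀ᶠ p in pF l z₀, b.H L 3 1 r p.1 ((κ p.1).symm p.2) ≤ R := by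
    intro r
    induction r with
    | zero =>
      choose C C0 hC using fl
      obtain ⟨C₁, C1, h1⟩ := ft
      obtain ⟨f, cf, f0, f1, f2, K3, K30, h3⟩ := Th31.e3 P.cons
      have s0 : 0 ≤ ∑ i, C i := Finset.sum_nonneg fun i _ => C0 i
      obtain ⟨D, hD⟩ : ∃ D, D = 8 * ((1 + ∑ i, C i) ^ 3 + C₁ ^ 4) + 1 := ⟨_, rfl⟩
      have D1 : 1 ≤ D := hD ▸ le_add_of_nonneg_left (by positivity)
      obtain ⟨R, hR⟩ := stepA f (23 / 12) (D + K3) cf f0 (by norm_num) (by norm_num) (by positivity) (by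
        filter_upwards [eventually_all.2 hC, (ev_F P).1 h3, tq, h1] with p h1 h2 q h4
        refine ⟨?_, h2.sm, h2.ex.imp fun G ⟨W, a1, a2, a3, a4⟩ =>
          ⟨|W|, a1, by rwa [sq_abs], le_trans ?_ a3, a4⟩⟩
        · rw [show (-(23 / 12) : ℝ) = -(((23 : ℕ) : ℝ) / 12) by norm_num, ← rp_pow q.1]
          have w1 := q.2.1
          have c1 := Th31.fs_le C0 (pow_nonneg (zero_le_one.trans w1) 23) h1
          have c2 := Th31.fs_nonneg (L := L) false p.1 ((κ p.1).symm p.2)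
          have c3 := Th31.fs_nonneg (L := L) true p.1 ((κ p.1).symm p.2)
          replace h4 := le_trans (le_add_of_nonneg_left (sq_nonneg _)) h4
          generalize Q p.2 ^ (-(1 / 12) : ℝ) = ϑ at *
          refine le_of_pow_le_pow_left₀ (n := 3) (by norm_num) (by positivity) ((f2 _ _).trans ?_)
          have c4 : 1 + fs L false p.1 ((κ p.1).symm p.2) ≤ (1 + ∑ i, C i) * ϑ ^ 23 := by
            linarith [one_le_pow₀ (n := 23) w1]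
          calc _ ≤ 8 * (((1 + ∑ i, C i) * ϑ ^ 23) ^ 3 + (C₁ * ϑ ^ 16) ^ 4) := by gcongr
            _ = 8 * ((1 + ∑ i, C i) ^ 3 * ϑ ^ 69 + C₁ ^ 4 * ϑ ^ 64) := by ring
            _ ≤ 8 * ((1 + ∑ i, C i) ^ 3 * ϑ ^ 69 + C₁ ^ 4 * ϑ ^ 69) := by gcongr; norm_num
            _ = (D - 1) * ϑ ^ 69 := by rw [hD]; ring
            _ ≤ (D + K3) ^ 3 * ϑ ^ 69 := by
                gcongr; linarith [le_self_pow₀ (show 1 ≤ D + K3 by linarith) (n := 3) (by norm_num)]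
            _ = _ := by ring
        · refine sub_le_sub_left (le_trans (b := K3 * (1 + √(f p.1 ((κ p.1).symm p.2))) *
            ((1 + √(f p.1 ((κ p.1).symm p.2))) ^ 2 + |W| * √G)) ?_ ?_) _ <;> gcongr
          exacts [le_abs_self _, by linarith])
      exact ⟨2 * R, hR.mono fun p hp => (f1 _ _).trans (by linarith)⟩
    | succ r ih =>
      obtain ⟨R, hR⟩ := ih
      obtain ⟨C, hC⟩ := hB r R
      obtain ⟨K2, h2⟩ := J.e2 r R
      refine stepA _ 1 (|C| * (4 * K) + |K2|) (fun n => (J.sm (r + 1) n).continuous)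
        (fun _ _ => b.H_nonneg ..) zero_le_one one_lt_two (by positivity) ?_
      filter_upwards [ev_B.1 hC, pF_ball hR, hR, (ev_F P).1 h2, tq, pF_small one_pos]
        with p h1 h3 h4 h5 q h6
      have n1 := b.H_nonneg L 3 1 (r + 1) p.1 ((κ p.1).symm p.2)
      refine ⟨?_, (J.sm _ p.1 _).of_le Mp86.two_le, _, 1,
        b.H_nonneg L 3 1 (r + 2) p.1 ((κ p.1).symm p.2), by simp, le_trans ?_ (h5 h4), (J.e4 _ _ _).trans ?_⟩
      · have a1 := (h1 h3).trans (le_abs_self C)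
        have tm := tau_mul h6.1
        rw [Real.rpow_neg_one, ← div_eq_mul_inv, le_div_iff₀ q.1]
        calc _ = (‖p.2 - z₀‖ / 2) ^ 2 * b.H L 3 1 (r + 1) p.1 ((κ p.1).symm p.2) *
              (tau z₀ p.2 ^ 2 * Q p.2) := by
              linear_combination (-(b.H L 3 1 (r + 1) p.1 ((κ p.1).symm p.2) * Q p.2 *
                (tau z₀ p.2 * (‖p.2 - z₀‖ / 2) + 1))) * tm
          _ ≤ |C| * (4 * K) := mul_le_mul a1 q.2.2.1 (mul_nonneg (sq_nonneg _) q.1.le) (abs_nonneg _)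
          _ ≤ _ := le_add_of_nonneg_right (abs_nonneg _)
      · rw [one_mul]
        refine sub_le_sub_left ?_ _
        gcongr
        exact (le_abs_self _).trans (le_add_of_nonneg_left (by positivity))
      · exact mul_le_mul_of_nonneg_left (sub_le_self _ (b.H_nonneg ..)) (by positivity)
  exact fun r => (main r).imp fun R h => (ev_F P).2 h

theorem ine_of_cons (hc : Cons b L) : Ine b L :=
  ⟨fun r n => hc.sm_H 3 1 r n, fun r n x => by simpa using hc.grad (dw := 3) one_pos r x,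
    fun r R => (hc.ine r R).imp fun K h => h.2.mono fun q hq hR => by
      simpa using (hq 1 le_rfl (Or.inl rfl) hR).2⟩

/-- **DEC** -/
theorem dec (P : Pun b L κ l z₀) (hB : Bern b L κ (gB l z₀)) (hE : Eps b L κ (gB l z₀)) :
    b.JB L := dec_of (ine_of_cons P.cons) P hB hE

end Crest.Agent.X212.Eps63
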