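import Crest.Agent.X212.Cmp73.St
import Crest.Agent.X212.Eps63.Ann

/-!
# Row 212, AN (helper63): uniform charts (LIP, volume), the iterated filter, annuli
-/

set_option autoImplicit false
set_option linter.unusedSectionVars false
open Set Filter Topology Function MeasureTheory Metric
open scoped ContDiff Manifold InnerProductSpace NNReal ENNReal

noncomputable section
namespace Crest.Agent.X212.Eps63

open Cmp73
open An (Sm)
open Sob92 (dv)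
open Mp86 (Lop)

variable {E : Type} [NormedAddCommGroup E] [NormedSpace ℝ E] {HM : Type} [TopologicalSpace HM]
  {I : ModelWithCorners ℝ E HM} {ι : Type} [Fintype ι]
  {E' : Type} [NormedAddCommGroup E'] [NormedSpace ℝ E']

section one
variable {N : Type} [TopologicalSpace N] [ChartedSpace HM N] [IsManifold I ∞ N]
  [MeasurableSpace N] {e : ι → (x : N) → TangentSpace I x} {μ : Measure N}
  {κ : OpenPartialHomeomorph N E'} {T : Set E'} {K : ℝ}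

/-- **LIP** -/
theorem ch_lip (h : Ch I e μ κ T K) (K0 : 0 ≤ K) (hT : Convex ℝ T) {f : N → ℝ} (hf : Sm I f)
    {A : ℝ} (A0 : 0 ≤ A) (hA : ∀ z ∈ T, ∀ a, |dv I (e a) f (κ.symm z)| ≤ A) {y y' : E'}
    (hy : y ∈ T) (hy' : y' ∈ T) :
    |f (κ.symm y') - f (κ.symm y)| ≤ Fintype.card ι * K * A * ‖y' - y‖ := by
  have d : ∀ z ∈ T, DifferentiableAt ℝ (fun z => f (κ.symm z)) z := fun z hz =>
    mdifferentiableAt_iff_differentiableAt.1 (((hf _).comp z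
      (h.sm'.contMDiffAt (κ.open_target.mem_nhds (h.tgt hz)))).mdifferentiableAt (by simp))
  refine hT.norm_image_sub_le_of_norm_fderiv_le (f := fun z => f (κ.symm z)) d
    (fun z hz => ContinuousLinearMap.opNorm_le_bound _ (by positivity) fun v => ?_) hy hy'
  obtain ⟨θ, h1, h2⟩ := h.sp z hz v
  have hs := κ.map_target (h.tgt hz)
  have key : ∀ a, fderiv ℝ (fun z => f (κ.symm z)) z (dv I (e a) κ (κ.symm z)) =
      dv I (e a) f (κ.symm z) := fun a => by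
    have e1 := Mp86.dv_comp (I := I) (v := e a) (x := κ.symm z) (u := κ)
      (g := fun z => f (κ.symm z)) (g' := fderiv ℝ (fun z => f (κ.symm z)) z)
      (by rw [κ.right_inv (h.tgt hz)]; exact (d z hz).hasFDerivAt)
      ((h.sm.contMDiffAt (κ.open_source.mem_nhds hs)).mdifferentiableAt (by simp))
    rw [← e1]
    refine Mp86.dv_congr ?_
    filter_upwards [κ.open_source.mem_nhds hs] with x hx
    rw [κ.left_inv hx]
  rw [← h1, map_sum]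
  refine (norm_sum_le _ _).trans ((Finset.sum_le_card_nsmul _ _ (K * ‖v‖ * A)
    fun a _ => ?_).trans_eq ?_)
  · rw [map_smul, key, norm_smul]
    exact mul_le_mul (h2 a) (hA z hz a) (norm_nonneg _) (by positivity)
  · rw [h1, Finset.card_univ, nsmul_eq_mul]; ring

theorem ch_low [OpensMeasurableSpace N] {z : E'} {ρ σ : ℝ} (h : Ch I e μ κ (closedBall z ρ) K)
    (s0 : 0 < σ) (s1 : σ ≤ ρ) {g : N → ℝ≥0∞} {c : ℝ≥0∞} {S : Set N}
    (hS : κ.symm '' closedBall z ρ ⊆ S) (hc : ∀ y ∈ ball z σ, c ≤ g (κ.symm y)) :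
    c * ENNReal.ofReal (σ ^ 4 / K) ≤ ∫⁻ x in S, g x ∂μ := by
  have sub : ball z σ ⊆ closedBall z ρ := ball_subset_closedBall.trans (closedBall_subset_closedBall s1)
  have o : IsOpen (κ.symm '' ball z σ) :=
    κ.symm.isOpen_image_of_subset_source isOpen_ball (sub.trans h.tgt)
  calc _ ≤ c * μ (κ.symm '' ball z σ) := mul_le_mul_right (h.vol z σ s0 sub) c
    _ = ∫⁻ _ in κ.symm '' ball z σ, c ∂μ := (setLIntegral_const _ _).symm
    _ ≤ ∫⁻ x in κ.symm '' ball z σ, g x ∂μ := setLIntegral_mono' o.measurableSet (by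
        rintro _ ⟨y, hy, rfl⟩; exact hc y hy)
    _ ≤ _ := lintegral_mono_set ((image_mono sub).trans hS)

end one

variable {α : Type} {l : Filter α} {z₀ : E'}

theorem ev_pF {P : α × E' → Prop} : (∀ᶠ p in pF l z₀, P p) ↔ ∃ δ > 0, ∀ δ' > 0, ∀ᶠ n in l,
    ∀ z, δ' ≤ ‖z - z₀‖ → ‖z - z₀‖ ≤ δ → P (n, z) := Iff.rfl

theorem pF_small {δ : ℝ} (h : 0 < δ) : ∀ᶠ p in pF l z₀, 0 < ‖p.2 - z₀‖ ∧ ‖p.2 - z₀‖ ≤ δ :=
  ev_pF.2 ⟨δ, h, fun _ h' => .of_forall fun _ _ a b => ⟨h'.trans_le a, b⟩⟩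

theorem ball_cmp {z y : E'} (hy : y ∈ closedBall z (‖z - z₀‖ / 2)) :
    ‖z - z₀‖ / 2 ≤ ‖y - z₀‖ ∧ ‖y - z₀‖ ≤ 2 * ‖z - z₀‖ := by
  have a := mem_closedBall_iff_norm.1 hy
  have b := norm_sub_le_norm_sub_add_norm_sub y z z₀
  have c := norm_sub_le_norm_sub_add_norm_sub z y z₀
  rw [norm_sub_rev z y] at c
  constructor <;> linarith [norm_nonneg (z - z₀)]

theorem pF_ball {P : α × E' → Prop} (h : ∀ᶠ p in pF l z₀, P p) :
    ∀ᶠ p in pF l z₀, ∀ y ∈ closedBall p.2 (‖p.2 - z₀‖ / 2), P (p.1, y) := by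
  obtain ⟨δ, h0, h⟩ := ev_pF.1 h
  refine ev_pF.2 ⟨δ / 2, by positivity, fun δ' h' => (h (δ' / 2) (by positivity)).mono
    fun n hn z a b y hy => hn y ?_ ?_⟩ <;> linarith [ball_cmp hy]

/-- the inverse radius -/
def tau (z₀ z : E') : ℝ := (‖z - z₀‖ / 2)⁻¹

theorem tau_nonneg (z : E') : 0 ≤ tau z₀ z := by unfold tau; positivity

theorem tau_ball {z y : E'} (h0 : 0 < ‖z - z₀‖) (hy : y ∈ closedBall z (‖z - z₀‖ / 2)) :
    tau z₀ y ≤ 2 * tau z₀ z := by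
  have := (ball_cmp hy).1
  unfold tau
  rw [show 2 * (‖z - z₀‖ / 2)⁻¹ = (‖z - z₀‖ / 4)⁻¹ by field_simp; norm_num]
  exact inv_anti₀ (by positivity) (by linarith)

theorem mu_sq (z : E') : (√(‖z - z₀‖ / 2))⁻¹ ^ 2 = tau z₀ z := by
  rw [inv_pow, Real.sq_sqrt (by positivity), tau]

theorem mu_pow (z : E') (k : ℕ) : (√(‖z - z₀‖ / 2))⁻¹ ^ (2 * k) = tau z₀ z ^ k := by
  rw [pow_mul, mu_sq]

variable {X : α → Type} [∀ n, TopologicalSpace (X n)] [∀ n, ChartedSpace HM (X n)]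
  [∀ n, IsManifold I ∞ (X n)] [∀ n, MeasurableSpace (X n)]
  {b : Fb I ι X} {L : Sy ι X} {κ : ∀ n, OpenPartialHomeomorph (X n) E'}

theorem ev_F (P : Pun b L κ l z₀) {Φ : (Σ n, X n) → Prop} :
    (∀ᶠ q in b.F, Φ q) ↔ ∀ᶠ p in pF l z₀, Φ ⟨p.1, (κ p.1).symm p.2⟩ := by
  rw [P.F]; rfl

theorem ev_B {Φ : α × E' × ℝ → Prop} :
    (∀ᶠ p in gB l z₀, Φ p) ↔ ∀ᶠ p in pF l z₀, Φ (p.1, p.2, ‖p.2 - z₀‖ / 2) := Iff.rfl

/-- a gradient bound gives lower bounds of integrals over balls -/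
theorem pun_low [∀ n, OpensMeasurableSpace (X n)] (P : Pun b L κ l z₀) {f : ∀ n, X n → ℝ}
    (hf : ∀ n, Sm I (f n)) {A : ℝ} (A0 : 0 ≤ A) (hA : ∀ᶠ p in pF l z₀, ∀ a,
      |dv I (b.e p.1 a) (f p.1) ((κ p.1).symm p.2)| ≤ A * tau z₀ p.2 ^ 5) (B0 : ℝ) :
    ∃ B K : ℝ, 0 < B ∧ B0 ≤ B ∧ 0 < K ∧ ∀ᶠ p in pF l z₀, ∀ σ, 0 < σ → σ ≤ ‖p.2 - z₀‖ / 2 →
      ∀ (g : X p.1 → ℝ≥0∞) (c : ℝ≥0∞) (S : Set (X p.1)),
        (κ p.1).symm '' closedBall p.2 (‖p.2 - z₀‖ / 2) ⊆ S →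
        (∀ y ∈ closedBall p.2 (‖p.2 - z₀‖ / 2), f p.1 ((κ p.1).symm p.2) - B * tau z₀ p.2 ^ 5 * σ ≤
          f p.1 ((κ p.1).symm y) → c ≤ g ((κ p.1).symm y)) →
        c * ENNReal.ofReal (σ ^ 4 / K) ≤ ∫⁻ x in S, g x ∂b.μ p.1 := by
  obtain ⟨K, K0, hK⟩ := P.bl.ch
  refine ⟨Fintype.card ι * K * (32 * A) + |B0| + 1, K, by positivity,
    by have : 0 ≤ Fintype.card ι * K * (32 * A) := by positivity
       linarith [le_abs_self B0], K0, ?_⟩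
  filter_upwards [ev_B.1 hK, pF_ball hA, pF_small one_pos] with p h1 h2 h3 σ s0 s1 g c S hS hc
  refine ch_low h1.2.2 s0 s1 hS fun y hy =>
    hc _ (ball_subset_closedBall.trans (closedBall_subset_closedBall s1) hy) ?_
  have t0 := tau_nonneg (z₀ := z₀) p.2
  have := ch_lip h1.2.2 K0.le (convex_closedBall _ _) (hf p.1) (A := 32 * A * tau z₀ p.2 ^ 5)
    (by positivity) (fun z hz a => (h2 z hz a).trans (by
      have := pow_le_pow_left₀ (tau_nonneg z) (tau_ball h3.1 hz) 5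
      nlinarith)) (mem_closedBall_self h1.1.le)
    (ball_subset_closedBall.trans (closedBall_subset_closedBall s1) hy)
  have a1 := (abs_le.1 this).1
  have a2 := (mem_ball_iff_norm.1 hy).le
  have a3 : Fintype.card ι * K * (32 * A * tau z₀ p.2 ^ 5) * ‖y - p.2‖ ≤
      (Fintype.card ι * K * (32 * A) + |B0| + 1) * tau z₀ p.2 ^ 5 * σ := by
    calc _ = Fintype.card ι * K * (32 * A) * tau z₀ p.2 ^ 5 * ‖y - p.2‖ := by ring
      _ ≤ _ := by gcongr; linarith [abs_nonneg B0]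
  linarith

/-- annuli in the charts -/
theorem pun_ann [CompleteSpace E] [∀ n, BoundarylessManifold I (X n)] [FiniteDimensional ℝ E']
    (P : Pun b L κ l z₀) : ∃ (Q : E' → ℝ) (K : ℝ), 0 < K ∧
      (∀ z, ‖z - z₀‖ ^ 2 ≤ K * Q z ∧ Q z ≤ K * ‖z - z₀‖ ^ 2) ∧
      ∀ ε > (0 : ℝ), ∀ γ > (0 : ℝ), ∀ Hy : α × E' → Prop, (∀ᶠ p in pF l z₀, Hy p) →
        ∃ d ∈ Ioc (0 : ℝ) ε, ∀ᶠ p in pF l z₀, ∃ (S : Set (X p.1)) (d' : ℝ),
          Ann I (b.e p.1) 0 (fun x => Q (κ p.1 x)) S d' d ε ∧ (κ p.1).symm p.2 ∈ S ∧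
          κ p.1 ((κ p.1).symm p.2) = p.2 ∧ d' ^ γ ≤ Q p.2 ∧
          ∀ x ∈ S, ∃ z, Hy (p.1, z) ∧ (κ p.1).symm z = x ∧ κ p.1 x = z := by
  obtain ⟨Q, K, sQ, hQ, hη⟩ := P.Q
  obtain ⟨K', -, hK⟩ := P.bl.ch
  have tg : ∀ᶠ p in pF l z₀, p.2 ∈ (κ p.1).target ∧
      ContMDiffOn I 𝓘(ℝ, E') ∞ (κ p.1) (κ p.1).source :=
    (ev_B.1 hK).mono fun p hp => ⟨hp.2.2.tgt (mem_closedBall_self hp.1.le), hp.2.2.sm⟩
  by_cases K0 : K ≤ 0
  · have bot : ∀ᶠ p in pF l z₀, False := by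
      filter_upwards [(ev_F P).1 (hη 1 one_pos), tg, pF_small one_pos] with p h1 h2 h3
      have a := (abs_nonneg _).trans h1.1
      rw [(κ p.1).right_inv h2.1] at a
      nlinarith [(hQ p.2).1, pow_pos h3.1 2]
    exact ⟨fun z => ‖z - z₀‖ ^ 2, 1, one_pos, fun z => by simp, fun ε h _ _ _ _ =>
      ⟨ε, ⟨h, le_rfl⟩, bot.mono fun _ h => h.elim⟩⟩
  push Not at K0
  refine ⟨Q, K, K0, hQ, fun ε ε0 γ γ0 Hy hH => ?_⟩
  obtain ⟨δ, δ0, hδ⟩ := ev_pF.1 (hH.and (tg.and ((ev_F P).1 (hη ε ε0))))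
  set d := min ε (δ ^ 2 / K) with hd
  have d0 : 0 < d := lt_min ε0 (by positivity)
  refine ⟨d, ⟨d0, min_le_left _ _⟩, ev_pF.2 ⟨√(d / K), by positivity, fun δ' δ'0 => ?_⟩⟩
  obtain ⟨d1, d10, hd1⟩ := small_pow (C := 1) γ0 (c := δ' ^ 2 / K) (by positivity)
  set d' := min d1 (δ' ^ 2 / K) with hd'
  have d'0 : 0 < d' := lt_min d10 (by positivity)
  filter_upwards [hδ √(d' / K) (by positivity)] with n hn z z1 z2
  let T : Set E' := {z | d' ≤ Q z ∧ Q z ≤ d}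
  have up : ∀ y ∈ T, ‖y - z₀‖ ≤ δ := fun y hy => by
    refine abs_le_of_sq_le_sq' ((hQ y).1.trans ?_) δ0.le |>.2
    rw [mul_comm, ← le_div_iff₀ K0]
    exact hy.2.trans (min_le_right _ _)
  have hT := fun y (hy : y ∈ T) => hn y (Real.sqrt_le_iff.2 ⟨norm_nonneg _, by
    rw [div_le_iff₀ K0, mul_comm]; exact hy.1.trans (hQ y).2⟩) (up y hy)
  have cT : IsCompact T := by
    have := FiniteDimensional.proper_real E'
    exact (isCompact_closedBall z₀ δ).of_isClosed_subset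
      ((isClosed_le continuous_const sQ.continuous).inter
        (isClosed_le sQ.continuous continuous_const)) fun y hy => mem_closedBall_iff_norm.2 (up y hy)
  have q0 : δ' ^ 2 / K ≤ Q z := by
    rw [div_le_iff₀ K0, mul_comm]
    exact (pow_le_pow_left₀ δ'0.le z1 2).trans (hQ z).1
  have zT : z ∈ T := ⟨(min_le_right _ _).trans q0, (hQ z).2.trans (by
    rw [mul_comm, ← le_div_iff₀ K0]
    exact (Real.le_sqrt (norm_nonneg _) (by positivity)).1 z2)⟩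
  have ri : ∀ y ∈ T, κ n ((κ n).symm y) = y := fun y hy => (κ n).right_inv (hT y hy).2.1.1
  refine ⟨(κ n).symm '' T, d', ⟨cT.image_of_continuousOn ((κ n).continuousOn_symm.mono
    fun y hy => (hT y hy).2.1.1), d'0, fun x _ a => ((b.frm n).se a x).of_le (by simp), ?_, ?_, ?_,
    ?_, ?_, ?_⟩, mem_image_of_mem _ zT, ri z zT, ?_, ?_⟩
  · rintro _ ⟨y, hy, rfl⟩
    exact (sQ.contMDiff.contMDiffAt.comp _ ((hT y hy).2.1.2.contMDiffAt
      ((κ n).open_source.mem_nhds ((κ n).map_target (hT y hy).2.1.1)))).of_le Mp86.two_le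
  · rintro _ ⟨y, hy, rfl⟩
    simpa only [ri y hy] using hy.1
  · rintro _ ⟨y, hy, rfl⟩
    simpa only [ri y hy] using hy.2
  · rintro _ ⟨y, hy, rfl⟩ hi
    by_contra! hc
    simp only [ri y hy] at hc
    refine hi (mem_interior.2 ⟨(κ n).source ∩ κ n ⁻¹' {z | d' < Q z ∧ Q z < d}, fun x hx =>
      ⟨κ n x, ⟨hx.2.1.le, hx.2.2.le⟩, (κ n).left_inv hx.1⟩, (κ n).isOpen_inter_preimage
        ((isOpen_lt continuous_const sQ.continuous).inter
          (isOpen_lt sQ.continuous continuous_const)), (κ n).map_target (hT y hy).2.1.1, ?_⟩)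
    rw [mem_preimage, ri y hy]
    exact ⟨lt_of_le_of_ne hy.1 hc.1.symm, lt_of_le_of_ne hy.2 hc.2⟩
  · rintro _ ⟨y, hy, rfl⟩
    exact (hT y hy).2.2.1
  · rintro _ ⟨y, hy, rfl⟩
    exact (hT y hy).2.2.2
  · have := hd1 d' ⟨d'0, min_le_left _ _⟩
    linarith
  · rintro _ ⟨y, hy, rfl⟩
    exact ⟨y, (hT y hy).1, rfl, ri y hy⟩

end Crest.Agent.X212.Eps63
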