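import Crest.Agent.X212.Eps63.Bc
import Crest.Agent.N207.H.Tr2

/-!
# Row 212, AN (helper63): gauge changes and the radial gauge (RAD)

`Γ x v ∈ 𝔸` skew, `𝔸` a real C*-type algebra (`V →L V`, quaternions), `D = d + Γ`.
`Gauge Ω Γ B g`: `g` smooth unitary, `dg = g Γ - B g`, i.e. `g ∘ D^Γ = D^B ∘ g`.
-/

set_option autoImplicit false
set_option linter.unusedSectionVars false

open Set Filter Topology
open scoped ContDiff
open Crest.Agent.N207.H

noncomputable section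

namespace Crest.Agent.X212.Eps63

variable {ι E V 𝔸 : Type} [NormedAddCommGroup E] [NormedSpace ℝ E] [NormedAddCommGroup V]
  [NormedSpace ℝ V] [NormedRing 𝔸] [NormedAlgebra ℝ 𝔸] [CompleteSpace 𝔸] [StarRing 𝔸]
  [CStarRing 𝔸] [StarModule ℝ 𝔸]

/-- the commutator -/
def adL : 𝔸 →L[ℝ] 𝔸 →L[ℝ] 𝔸 :=
  ContinuousLinearMap.mul ℝ 𝔸 - (ContinuousLinearMap.mul ℝ 𝔸).flip

@[simp] theorem adL_apply (a y : 𝔸) : adL a y = a * y - y * a := rfl

/-- the connection induced by a linear map `ρ` (a representation, or `adL`) -/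
def rep (ρ : 𝔸 →L[ℝ] V →L[ℝ] V) (Γ : ι → E → E →L[ℝ] 𝔸) : ι → E → E →L[ℝ] V →L[ℝ] V :=
  fun i x => ρ ∘L Γ i x

/-- `g` is a smooth unitary gauge transformation from `Γ` to `B` -/
structure Gauge (Ω : ι → Set E) (Γ B : ι → E → E →L[ℝ] 𝔸) (g : ι → E → 𝔸) : Prop where
  sg : Sm Ω g
  sB : Sm Ω B
  un : ∀ i, ∀ x ∈ Ω i, g i x ∈ unitary 𝔸
  dg : ∀ i, ∀ x ∈ Ω i, ∀ v, fderiv ℝ (g i) x v = g i x * Γ i x v - B i x v * g i x

variable {Ω : ι → Set E} {Γ B : ι → E → E →L[ℝ] 𝔸} {g : ι → E → 𝔸}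

theorem Sm.rep (h : Sm Ω Γ) (ρ : 𝔸 →L[ℝ] V →L[ℝ] V) : Sm Ω (rep ρ Γ) :=
  fun i x hx => contDiffAt_const.clm_comp (h i x hx)

theorem Sm.mul {f h : ι → E → 𝔸} (s : Sm Ω f) (s' : Sm Ω h) : Sm Ω fun i x => f i x * h i x :=
  fun i x hx => (s i x hx).mul (s' i x hx)

theorem Sm.star {f : ι → E → 𝔸} (s : Sm Ω f) : Sm Ω fun i x => star (f i x) :=
  s.clm (starL' ℝ : 𝔸 ≃L[ℝ] 𝔸).toContinuousLinearMap

theorem Sm.crv (h : Sm Ω Γ) (u v : E) : Sm Ω fun i x => crv (Γ i) x u v :=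
  ((((h.pd u).app (Sm.const v)).sub ((h.pd v).app (Sm.const u))).add
    ((h.app (Sm.const u)).mul (h.app (Sm.const v)))).sub
    ((h.app (Sm.const v)).mul (h.app (Sm.const u)))

theorem BC.mul (ho : ∀ i, IsOpen (Ω i)) {k : ℕ} {f h : ι → E → 𝔸} (s : Sm Ω f) (s' : Sm Ω h)
    (b : BC Ω k f) (b' : BC Ω k h) : BC Ω k fun i x => f i x * h i x :=
  BC.app ho (s.clm (ContinuousLinearMap.mul ℝ 𝔸)) s' (BC.clm ho _ s b) b'

theorem norm_unitary_le {a : 𝔸} (h : a ∈ unitary 𝔸) : ‖a‖ ≤ 1 := by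
  nontriviality 𝔸
  exact (CStarRing.norm_of_mem_unitary h).le

theorem Gauge.b0 (h : Gauge Ω Γ B g) : B0 Ω g := ⟨1, fun i x hx => norm_unitary_le (h.un i x hx)⟩

theorem Gauge.b0s (h : Gauge Ω Γ B g) : B0 Ω fun i x => star (g i x) :=
  ⟨1, fun i x hx => norm_unitary_le (Unitary.star_mem (h.un i x hx))⟩

theorem Gauge.reindex {ι' : Type} {Ω' : ι' → Set E} (f : ι' → ι) (hf : ∀ j, Ω' j ⊆ Ω (f j))
    (h : Gauge Ω Γ B g) : Gauge Ω' (fun j => Γ (f j)) (fun j => B (f j)) fun j => g (f j) :=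
  ⟨h.sg.reindex f hf, h.sB.reindex f hf, fun j x hx => h.un _ x (hf j hx),
    fun j x hx => h.dg _ x (hf j hx)⟩

theorem fderiv_star_apply {f : E → 𝔸} {x : E} (v : E) :
    fderiv ℝ (fun y => star (f y)) x v = star (fderiv ℝ f x v) := by
  rw [fderiv_star]; rfl

theorem d_unitary {f : E → 𝔸} {x : E} (hf : DifferentiableAt ℝ f x)
    (h : ∀ᶠ y in 𝓝 x, f y ∈ unitary 𝔸) (v : E) :
    f x * star (fderiv ℝ f x v) + fderiv ℝ f x v * star (f x) = 0 := by
  have h1 : fderiv ℝ (fun y => f y * star (f y)) x = 0 := by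
    rw [Filter.EventuallyEq.fderiv_eq (f := fun _ => (1 : 𝔸))
      (h.mono fun y hy => (Unitary.mem_iff.1 hy).2)]
    simp
  have h2 := congrArg (fun T : E →L[ℝ] 𝔸 => T v) (fderiv_fun_mul' hf hf.star)
  simp only [h1, zero_apply, add_apply, smul_apply, smul_eq_mul, op_smul_eq_mul,
    fderiv_star_apply] at h2
  exact h2.symm

theorem Gauge.dstar (ho : ∀ i, IsOpen (Ω i)) (h : Gauge Ω Γ B g) {i : ι} {x : E} (hx : x ∈ Ω i)
    (v : E) : star (fderiv ℝ (g i) x v) = star (g i x) * B i x v - Γ i x v * star (g i x) := by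
  have h1 := d_unitary (h.sg.da hx) (eventually_of_mem ((ho i).mem_nhds hx) (h.un i)) v
  obtain ⟨a, b⟩ := Unitary.mem_iff.1 (h.un i x hx)
  have h2 := congrArg (star (g i x) * ·) h1
  simp only [mul_add, ← mul_assoc, a, one_mul, mul_zero] at h2
  rw [eq_neg_of_add_eq_zero_left h2, h.dg i x hx]
  simp only [mul_sub, sub_mul, ← mul_assoc, a, one_mul]
  simp only [mul_assoc, b, mul_one]
  abel

theorem Gauge.skew (ho : ∀ i, IsOpen (Ω i)) (h : Gauge Ω Γ B g)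
    (sk : ∀ i, ∀ x ∈ Ω i, ∀ v, star (Γ i x v) = -Γ i x v) {i : ι} {x : E} (hx : x ∈ Ω i) (v : E) :
    star (B i x v) = -B i x v := by
  have h1 := h.dstar ho hx v
  obtain ⟨a, b⟩ := Unitary.mem_iff.1 (h.un i x hx)
  rw [h.dg i x hx, star_sub, star_mul, star_mul, sk i x hx] at h1
  have h2 : star (g i x) * star (B i x v) = -(star (g i x) * B i x v) := by
    rw [← sub_eq_zero] at h1 ⊢
    rw [← neg_eq_zero, ← h1]
    noncomm_ring
  have h3 := congrArg (g i x * ·) h2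
  simpa only [mul_neg, ← mul_assoc, b, one_mul] using h3

/-- covariance of the curvature -/
theorem Gauge.crv (ho : ∀ i, IsOpen (Ω i)) (h : Gauge Ω Γ B g) (s : Sm Ω Γ) {i : ι} {x : E}
    (hx : x ∈ Ω i) (u v : E) :
    crv (B i) x u v = g i x * crv (Γ i) x u v * star (g i x) := by
  have d1 := (h.sg.da hx).hasFDerivAt
  have key : ∀ u v, fderiv ℝ (fderiv ℝ (g i)) x u v =
      g i x * fderiv ℝ (Γ i) x u v + fderiv ℝ (g i) x u * Γ i x v -
        (B i x v * fderiv ℝ (g i) x u + fderiv ℝ (B i) x u v * g i x) := by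
    intro u v
    have e1 := (((h.sg.fderiv.da hx).hasFDerivAt.clm_apply (hasFDerivAt_const v x)).unique
      (((d1.mul' ((s.da hx).hasFDerivAt.clm_apply (hasFDerivAt_const v x))).sub
      (((h.sB.da hx).hasFDerivAt.clm_apply (hasFDerivAt_const v x)).mul' d1)).congr_of_eventuallyEq
      (eventually_of_mem ((ho i).mem_nhds hx) fun y hy => h.dg i y hy v)))
    simpa using congrArg (fun T : E →L[ℝ] 𝔸 => T u) e1
  have sy := h.sg.symm hx u v
  rw [key, key, h.dg i x hx, h.dg i x hx] at sy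
  have e : N207.H.crv (B i) x u v * g i x = g i x * N207.H.crv (Γ i) x u v := by
    rw [← sub_eq_zero] at sy ⊢
    rw [← neg_eq_zero, ← sy, N207.H.crv, N207.H.crv]
    noncomm_ring
  rw [← e, mul_assoc, (Unitary.mem_iff.1 (h.un i x hx)).2, mul_one]

/-- covariant words of sections of a module -/
theorem Gauge.bd (ho : ∀ i, IsOpen (Ω i)) (h : Gauge Ω Γ B g) (s : Sm Ω Γ)
    (ρ : 𝔸 →L[ℝ] V →L[ℝ] V) (hρ : ∀ a b y, ρ (a * b) y = ρ a (ρ b y)) {k : ℕ} {u : ι → E → V}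
    (su : Sm Ω u) (hu : BD Ω (rep ρ Γ) k u) :
    BD Ω (rep ρ B) k fun i x => ρ (g i x) (u i x) := by
  refine BD.gauge ho (s.rep ρ) (h.sg.clm ρ) (h.b0.clm ρ) (fun i x hx v y => ?_) su hu
  have := (ρ.hasFDerivAt.comp x (h.sg.da hx).hasFDerivAt).fderiv
  rw [show fderiv ℝ (fun x => ρ (g i x)) x = _ from this]
  simp [rep, h.dg i x hx, hρ]

theorem B0.mul {f h : ι → E → 𝔸} (b : B0 Ω f) (b' : B0 Ω h) : B0 Ω fun i x => f i x * h i x :=
  B0.app (b.clm (ContinuousLinearMap.mul ℝ 𝔸)) b'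

/-- covariant words in the adjoint representation -/
theorem Gauge.bd_ad (ho : ∀ i, IsOpen (Ω i)) (h : Gauge Ω Γ B g) (s : Sm Ω Γ) : ∀ {k : ℕ}
    {u : ι → E → 𝔸}, Sm Ω u → BD Ω (rep adL Γ) k u →
    BD Ω (rep adL B) k fun i x => g i x * u i x * star (g i x)
  | 0, _, _, hu => (h.b0.mul hu).mul h.b0s
  | _ + 1, u, su, hu => ⟨(h.b0.mul hu.1).mul h.b0s, fun v =>
      (Gauge.bd_ad ho h s ((s.rep adL).cD su v) (hu.2 v)).congr ho fun i x hx => by
        have d := (((h.sg.da hx).hasFDerivAt.mul' (su.da hx).hasFDerivAt).mul'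
          (h.sg.star.da hx).hasFDerivAt).fderiv
        rw [cD, cD, show fderiv ℝ (fun x => g i x * u i x * star (g i x)) x = _ from d]
        simp only [add_apply, smul_apply, smul_eq_mul, op_smul_eq_mul, Pi.mul_apply,
          ContinuousLinearMap.comp_apply, fderiv_star_apply, h.dstar ho hx, rep, adL_apply]
        rw [h.dg i x hx]
        noncomm_ring⟩

/-- bounded gauge transformations between bounded connections have bounded jets -/
theorem Gauge.bc (ho : ∀ i, IsOpen (Ω i)) (h : Gauge Ω Γ B g) (s : Sm Ω Γ) :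
    ∀ k : ℕ, (∀ v, BC Ω k fun i x => Γ i x v) → (∀ v, BC Ω k fun i x => B i x v) →
      BC Ω (k + 1) g
  | 0, a, b => ⟨h.b0, fun v => by
      have ih : BC Ω 0 g := h.b0
      exact (BC.sub ho (h.sg.mul (s.app (Sm.const v)))
        ((h.sB.app (Sm.const v)).mul h.sg) (BC.mul ho h.sg (s.app (Sm.const v)) ih (a v))
        (BC.mul ho (h.sB.app (Sm.const v)) h.sg (b v) ih)).congr ho fun i x hx => h.dg i x hx v⟩
  | k + 1, a, b => ⟨h.b0, fun v => by
      have ih := Gauge.bc ho h s k (fun v => (a v).pred) fun v => (b v).pred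
      exact (BC.sub ho (h.sg.mul (s.app (Sm.const v)))
        ((h.sB.app (Sm.const v)).mul h.sg) (BC.mul ho h.sg (s.app (Sm.const v)) ih (a v))
        (BC.mul ho (h.sB.app (Sm.const v)) h.sg (b v) ih)).congr ho fun i x hx => h.dg i x hx v⟩

/-! ### radial connections -/

/-- the curvature as a linear map of its first argument -/
def crvL (Γ : E → E →L[ℝ] 𝔸) (v x : E) : E →L[ℝ] 𝔸 :=
  (fderiv ℝ Γ x).flip v - fderiv ℝ Γ x v + (adL.flip (Γ x v)) ∘L Γ x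

theorem crvL_apply (Γ : E → E →L[ℝ] 𝔸) (v x u : E) : crvL Γ v x u = crv Γ x u v := by
  simp [crvL, crv, add_sub_assoc]

theorem Sm.on {u : ι → E → V} (s : Sm Ω u) (i : ι) : ContDiffOn ℝ ∞ (u i) (Ω i) :=
  fun x hx => (s i x hx).contDiffWithinAt

theorem Sm.crvL [FiniteDimensional ℝ E] (ho : ∀ i, IsOpen (Ω i)) (h : Sm Ω Γ) (v : E) :
    Sm Ω fun i => crvL (Γ i) v := fun i _ hx =>
  (contDiffOn_clm_apply.2 fun u => ((h.crv u v).on i).congr fun _ _ =>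
    crvL_apply _ _ _ _).contDiffAt ((ho i).mem_nhds hx)

theorem bc_rad [FiniteDimensional ℝ E] (ho : ∀ i, IsOpen (Ω i)) {p : ι → E} (hs : Star Ω p)
    (hb : B0 Ω fun i x => x - p i) (s : Sm Ω B) (r : ∀ i, ∀ x ∈ Ω i, B i x (x - p i) = 0) :
    ∀ k : ℕ, (∀ u v, BD Ω (rep adL B) k fun i x => crv (B i) x u v) →
      ∀ v, BC Ω k fun i x => B i x v := by
  have sp : Sm Ω fun i x => x - p i := fun i x _ => contDiffAt_id.sub contDiffAt_const
  have bp : ∀ k, BC Ω k fun i x => x - p i := by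
    rintro (_ | k)
    · exact hb
    · exact ⟨hb, fun v => (BC.const ho v k).congr ho fun i x _ => by simp [fderiv_sub_const]⟩
  have step : ∀ k, (∀ u v, BC Ω k fun i x => crv (B i) x u v) →
      ∀ v, BC Ω k fun i x => B i x v := by
    intro k h v
    refine bc_of_radial ho hs k 0 (s.app (Sm.const v)) ((BC.app ho (s.crvL ho v) sp
      (bc_of_apply ho (s.crvL ho v) fun u => (h u v).congr ho fun i x _ => crvL_apply _ _ _ _)
      (bp k)).congr ho fun i x hx => ?_)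
    have d := (s.da hx).hasFDerivAt
    have e1 := congrArg (fun T : E →L[ℝ] 𝔸 => T v)
      ((d.clm_apply ((hasFDerivAt_id x).sub_const (p i))).unique
      ((hasFDerivAt_const (0 : 𝔸) x).congr_of_eventuallyEq
        (eventually_of_mem ((ho i).mem_nhds hx) (r i))))
    rw [(d.clm_apply (hasFDerivAt_const v x)).fderiv, crvL_apply, crv, r i x hx]
    simp only [add_apply, ContinuousLinearMap.comp_apply, ContinuousLinearMap.flip_apply, id,
      ContinuousLinearMap.id_apply, zero_apply] at e1 ⊢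
    rw [eq_neg_of_add_eq_zero_right e1]
    simp [add_comm]
  intro k
  induction k with
  | zero => exact fun h => step 0 h
  | succ k ih =>
    intro h
    have a := ih fun u v => (h u v).pred
    exact step (k + 1) fun u v => BD.bc ho (s.rep adL) (s.crv u v)
      (fun w => BC.clm ho adL (s.app (Sm.const w)) (a w)) (h u v)

/-! ### the radial gauge -/

/-- radial gauge transformation -/
def rg (Γ : ι → E → E →L[ℝ] 𝔸) (p : ι → E) (i : ι) (x : E) : 𝔸 := trp (Γ i) (p i, x)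

/-- the transformed connection -/
def gau (Γ : ι → E → E →L[ℝ] 𝔸) (g : ι → E → 𝔸) (i : ι) (x : E) : E →L[ℝ] 𝔸 :=
  (ContinuousLinearMap.mul ℝ 𝔸).flip (star (g i x)) ∘L
    (ContinuousLinearMap.mul ℝ 𝔸 (g i x) ∘L Γ i x - fderiv ℝ (g i) x)

theorem gau_apply (i : ι) (x v : E) :
    gau Γ g i x v = (g i x * Γ i x v - fderiv ℝ (g i) x v) * star (g i x) := rfl

theorem gauge_gau (s : Sm Ω Γ) (sg : Sm Ω g) (un : ∀ i, ∀ x ∈ Ω i, g i x ∈ unitary 𝔸) :
    Gauge Ω Γ (gau Γ g) g :=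
  ⟨sg, fun i x hx => ((sg.star.clm (ContinuousLinearMap.mul ℝ 𝔸).flip) i x hx).clm_comp
      ((((sg.clm (ContinuousLinearMap.mul ℝ 𝔸)) i x hx).clm_comp (s i x hx)).sub
        (sg.fderiv i x hx)), un, fun i x hx v => by
    rw [gau_apply, mul_assoc, (Unitary.mem_iff.1 (un i x hx)).1]; simp⟩

theorem trp_unitary {Γ : E → E →L[ℝ] 𝔸} {U : Set E} (hU : IsOpen U) (hΓ : ContDiffOn ℝ ∞ Γ U)
    (sk : ∀ x ∈ U, ∀ v, star (Γ x v) = -Γ x v) {p x : E} (h : (p, x) ∈ segD U) :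
    trp Γ (p, x) ∈ unitary 𝔸 := by
  have key : ∀ t ∈ Icc (0 : ℝ) 1, HasDerivWithinAt (fun t : ℝ => trp Γ (p, p + t • (x - p)) *
      star (trp Γ (p, p + t • (x - p)))) 0 (Icc 0 1) t := by
    intro t ht
    have a := hasDerivAt_trp hU hΓ (segD_scale h ht)
    refine (a.mul a.star).hasDerivWithinAt.congr_deriv ?_
    rw [star_mul, sk _ (h t ht)]
    noncomm_ring
  have := norm_image_sub_le_of_norm_deriv_le_segment_01' (C := 0) key fun t _ => by simp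
  simp only [one_smul, add_sub_cancel, zero_smul, add_zero, trp_self hΓ (segD_left h), star_one,
    mul_one, norm_le_zero_iff, sub_eq_zero] at this
  have h2 := trp_mul_symm hU hΓ (segD_symm h)
  have e : trp Γ (x, p) = star (trp Γ (p, x)) := left_inv_eq_right_inv h2 this
  exact Unitary.mem_iff.2 ⟨e ▸ h2, this⟩

theorem trp_mem {Γ : E → E →L[ℝ] 𝔸} {U : Set E} (hU : IsOpen U) (hΓ : ContDiffOn ℝ ∞ Γ U)
    (H : Subalgebra ℝ 𝔸) [FiniteDimensional ℝ H] (hH : ∀ x ∈ U, ∀ v, Γ x v ∈ H) {p x : E}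
    (h : (p, x) ∈ segD U) : trp Γ (p, x) ∈ H := by
  have : FiniteDimensional ℝ H.toSubmodule := ‹_›
  obtain ⟨f, hf⟩ := Submodule.ClosedComplemented.of_finiteDimensional H.toSubmodule
  let π : 𝔸 →L[ℝ] 𝔸 := ContinuousLinearMap.id ℝ 𝔸 - H.toSubmodule.subtypeL ∘L f
  have p0 : ∀ a ∈ H, π a = 0 := fun a ha => by
    have := congrArg Subtype.val (hf ⟨a, ha⟩)
    simpa [π, sub_eq_zero] using this.symm
  have p1 : ∀ a, a - π a ∈ H := fun a => by simp [π]
  have hc : ContinuousOn (fun t : ℝ => Γ (p + t • (x - p)) (x - p)) (Icc 0 1) :=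
    (hΓ.continuousOn.comp (by fun_prop) fun t ht => h t ht).clm_apply continuousOn_const
  obtain ⟨K, hK⟩ := isCompact_Icc.exists_bound_of_continuousOn hc
  have hK0 : 0 ≤ K := (norm_nonneg _).trans (hK 0 ⟨le_rfl, zero_le_one⟩)
  have g := gronwall_le (K := ‖π‖ * K) (by positivity) le_rfl
    (fun t ht => π.hasFDerivAt.comp_hasDerivAt t (hasDerivAt_trp hU hΓ (segD_scale h ht)))
    (fun t ht => ?_) 1 ⟨zero_le_one, le_rfl⟩
  · simp only [Function.comp, one_smul, add_sub_cancel, zero_smul, add_zero,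
      trp_self hΓ (segD_left h), p0 1 H.one_mem, norm_zero, zero_mul, norm_le_zero_iff] at g
    simpa [g] using p1 (trp Γ (p, x))
  · set a := trp Γ (p, p + t • (x - p))
    have e : π (a * Γ (p + t • (x - p)) (x - p)) = π (π a * Γ (p + t • (x - p)) (x - p)) := by
      rw [← sub_eq_zero, ← map_sub, ← sub_mul]
      exact p0 _ (H.mul_mem (p1 a) (hH _ (h t ht) _))
    rw [e, add_zero, mul_assoc, mul_comm K]
    exact (π.le_opNorm _).trans (mul_le_mul_of_nonneg_left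
      ((norm_mul_le _ _).trans (mul_le_mul_of_nonneg_left (hK t ht) (norm_nonneg _)))
      (norm_nonneg _))

theorem fderiv_mem (H : Submodule ℝ V) (hH : IsClosed (H : Set V)) {f : E → V} {x : E}
    (hf : DifferentiableAt ℝ f x) (h : ∀ᶠ y in 𝓝 x, f y ∈ H) (v : E) : fderiv ℝ f x v ∈ H := by
  have h1 := hf.hasFDerivAt.lim_real v
  refine hH.mem_of_tendsto h1 ?_
  have h2 : Tendsto (fun d : ℝ => x + d⁻¹ • v) atTop (𝓝 x) := by
    simpa using ((tendsto_inv_atTop_zero (𝕜 := ℝ)).smul_const v).const_add x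
  filter_upwards [h2.eventually h] with d hd
  exact H.smul_mem _ (H.sub_mem hd h.self_of_nhds)

theorem Gauge.mem (ho : ∀ i, IsOpen (Ω i)) (h : Gauge Ω Γ B g) (H : StarSubalgebra ℝ 𝔸)
    (hH : IsClosed (H : Set 𝔸)) (h1 : ∀ i, ∀ x ∈ Ω i, ∀ v, Γ i x v ∈ H)
    (h2 : ∀ i, ∀ x ∈ Ω i, g i x ∈ H) {i : ι} {x : E} (hx : x ∈ Ω i) (v : E) : B i x v ∈ H := by
  have a := fderiv_mem H.toSubalgebra.toSubmodule hH (h.sg.da hx)
    (eventually_of_mem ((ho i).mem_nhds hx) (h2 i)) v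
  have e : B i x v = (g i x * Γ i x v - fderiv ℝ (g i) x v) * star (g i x) := by
    rw [h.dg i x hx, sub_sub_cancel, mul_assoc, (Unitary.mem_iff.1 (h.un i x hx)).2, mul_one]
  rw [e]
  exact mul_mem (sub_mem (mul_mem (h2 i x hx) (h1 i x hx v)) a) (star_mem (h2 i x hx))

variable {p : ι → E}

theorem Star.seg (hs : Star Ω p) {i : ι} {x : E} (hx : x ∈ Ω i) : (p i, x) ∈ segD (Ω i) :=
  hs i x hx

theorem Sm.rg (ho : ∀ i, IsOpen (Ω i)) (hs : Star Ω p) (s : Sm Ω Γ) : Sm Ω (rg Γ p) :=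
  fun i x hx => ContDiffAt.comp (g := trp (Γ i)) x (contDiffAt_trp (ho i) (s.on i) (hs.seg hx))
    (contDiffAt_const.prodMk contDiffAt_id)

theorem gauge_rg (ho : ∀ i, IsOpen (Ω i)) (hs : Star Ω p) (s : Sm Ω Γ)
    (sk : ∀ i, ∀ x ∈ Ω i, ∀ v, star (Γ i x v) = -Γ i x v) :
    Gauge Ω Γ (gau Γ (rg Γ p)) (rg Γ p) :=
  gauge_gau s (s.rg ho hs) fun i _ hx => trp_unitary (ho i) (s.on i) (sk i) (hs.seg hx)

theorem gau_rg_radial (ho : ∀ i, IsOpen (Ω i)) (hs : Star Ω p) (s : Sm Ω Γ) (i : ι) (x : E)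
    (hx : x ∈ Ω i) : gau Γ (rg Γ p) i x (x - p i) = 0 := by
  have h1 := hasDerivAt_trp (ho i) (s.on i) (segD_scale (hs.seg hx) (τ := 1) ⟨zero_le_one, le_rfl⟩)
  have h2 : HasDerivAt (fun t : ℝ => p i + t • (x - p i)) (x - p i) 1 := by
    simpa using ((hasDerivAt_id (1 : ℝ)).smul_const (x - p i)).const_add (p i)
  have h3 := HasFDerivAt.comp_hasDerivAt_of_eq (1 : ℝ) ((s.rg ho hs).da hx).hasFDerivAt h2 (by simp)
  have h4 := h3.unique h1
  simp only [one_smul, add_sub_cancel] at h4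
  rw [gau_apply, h4, rg, sub_self, zero_mul]

/-- **RAD**: in the radial gauge the connection form is bounded in `C^k` by the covariant
`C^k` norm of the curvature, uniformly in the family -/
theorem rad_bc [FiniteDimensional ℝ E] (ho : ∀ i, IsOpen (Ω i)) (hs : Star Ω p)
    (hb : B0 Ω fun i x => x - p i) (s : Sm Ω Γ)
    (sk : ∀ i, ∀ x ∈ Ω i, ∀ v, star (Γ i x v) = -Γ i x v) (k : ℕ)
    (hF : ∀ u v, BD Ω (rep adL Γ) k fun i x => crv (Γ i) x u v) : BC Ω k (gau Γ (rg Γ p)) := by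
  have G := gauge_rg ho hs s sk
  exact bc_of_apply ho G.sB (bc_rad ho hs hb G.sB (gau_rg_radial ho hs s) k fun u v =>
    (G.bd_ad ho s (s.crv u v) (hF u v)).congr ho fun i x hx => G.crv ho s hx u v)

/-- sections in a gauge with bounded connection form -/
theorem Gauge.bc_sec (ho : ∀ i, IsOpen (Ω i)) (h : Gauge Ω Γ B g) (s : Sm Ω Γ)
    (ρ : 𝔸 →L[ℝ] V →L[ℝ] V) (hρ : ∀ a b y, ρ (a * b) y = ρ a (ρ b y)) {k : ℕ} (hB : BC Ω k B)
    {u : ι → E → V} (su : Sm Ω u) (hu : BD Ω (rep ρ Γ) (k + 1) u) :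
    BC Ω (k + 1) fun i x => ρ (g i x) (u i x) :=
  BD.bc ho (h.sB.rep ρ) ((h.sg.clm ρ).app su) (fun v => BC.clm ho ρ (h.sB.app (Sm.const v))
    (BC.app ho h.sB (Sm.const v) hB (BC.const ho v k))) (h.bd ho s ρ hρ su hu)

/-- **RAD**, packaged -/
theorem rad [FiniteDimensional ℝ E] [FiniteDimensional ℝ 𝔸] (ho : ∀ i, IsOpen (Ω i))
    (hs : Star Ω p) (hb : B0 Ω fun i x => x - p i) (s : Sm Ω Γ)
    (sk : ∀ i, ∀ x ∈ Ω i, ∀ v, star (Γ i x v) = -Γ i x v) (H : StarSubalgebra ℝ 𝔸)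
    (hH : ∀ i, ∀ x ∈ Ω i, ∀ v, Γ i x v ∈ H)
    (hF : ∀ k u v, BD Ω (rep adL Γ) k fun i x => crv (Γ i) x u v) :
    ∃ g B, Gauge Ω Γ B g ∧ (∀ k, BC Ω k B) ∧ (∀ i, ∀ x ∈ Ω i, g i x ∈ H) ∧
      (∀ i, ∀ x ∈ Ω i, ∀ v, B i x v ∈ H ∧ star (B i x v) = -B i x v) := by
  have G := gauge_rg ho hs s sk
  have m : ∀ i, ∀ x ∈ Ω i, rg Γ p i x ∈ H := fun i x hx =>
    trp_mem (ho i) (s.on i) H.toSubalgebra (hH i) (hs.seg hx)
  exact ⟨_, _, G, fun k => rad_bc ho hs hb s sk k (hF k), m, fun i x hx v =>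
    ⟨G.mem ho H H.toSubalgebra.toSubmodule.closed_of_finiteDimensional hH m hx v,
      G.skew ho sk hx v⟩⟩

end Crest.Agent.X212.Eps63

end
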