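import Crest.Agent.X212.Eps63.Ext
import Crest.Agent.X212.Eps63.Rad

/-!
# Row 212, AN (helper63): removal of a point singularity with bounded covariant jets (REM)
-/

set_option autoImplicit false
set_option linter.unusedSectionVars false

open Set Filter Topology Metric
open scoped ContDiff
open Crest.Agent.N207.H

noncomputable section

namespace Crest.Agent.X212.Eps63

variable {E V 𝔸 : Type} [NormedAddCommGroup E] [NormedSpace ℝ E] [NormedAddCommGroup V]
  [NormedSpace ℝ V] [NormedRing 𝔸] [NormedAlgebra ℝ 𝔸] [CompleteSpace 𝔸] [StarRing 𝔸]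
  [CStarRing 𝔸] [StarModule ℝ 𝔸] [FiniteDimensional ℝ E]

/-- the punctured ball as a one point family -/
def PB (o : E) (R : ℝ) : Unit → Set E := fun _ => ball o R \ {o}

theorem isOpen_PB (o : E) (R : ℝ) (i : Unit) : IsOpen (PB o R i) :=
  isOpen_ball.sdiff isClosed_singleton

theorem thin_point (h : 3 < Module.finrank ℝ E) (o : E) : Thin {o} :=
  (thin_line h o 0).mono fun z hz => ⟨0, by simpa using hz⟩

/-- functions with bounded jets on the punctured ball extend over the centre -/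
theorem ext_point [FiniteDimensional ℝ V] (h : 3 < Module.finrank ℝ E) {o : E} {R : ℝ}
    {f : E → V} (s : Sm (PB o R) fun _ => f) (b : ∀ k, BC (PB o R) k fun _ => f) :
    ∃ g : E → V, (∀ x ∈ ball o R, ContDiffAt ℝ ∞ g x) ∧ EqOn g f (ball o R \ {o}) :=
  (thin_point h o).ext isOpen_ball (convex_ball o R) (isOpen_PB o R ()) Subset.rfl sdiff_subset s b

theorem isClosed_unit : IsClosed (unitary 𝔸 : Set 𝔸) := by
  have : (unitary 𝔸 : Set 𝔸) = {a | star a * a = 1} ∩ {a | a * star a = 1} := by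
    ext a; exact Unitary.mem_iff
  rw [this]
  exact (isClosed_eq (by fun_prop) continuous_const).inter
    (isClosed_eq (by fun_prop) continuous_const)

/-- **REM** for the connection -/
theorem rem [FiniteDimensional ℝ 𝔸] (h : 3 < Module.finrank ℝ E) {o : E} {R : ℝ}
    {Γ : E → E →L[ℝ] 𝔸} (s : Sm (PB o R) fun _ => Γ)
    (sk : ∀ x ∈ ball o R \ {o}, ∀ v, star (Γ x v) = -Γ x v) (H : StarSubalgebra ℝ 𝔸)
    (hH : ∀ x ∈ ball o R \ {o}, ∀ v, Γ x v ∈ H)
    (hF : ∀ k u v, BD (PB o R) (rep adL fun _ => Γ) k fun _ x => crv Γ x u v) :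
    ∃ (g : E → 𝔸) (B : E → E →L[ℝ] 𝔸), Gauge (PB o R) (fun _ => Γ) (fun _ => B) (fun _ => g) ∧
      (∀ x ∈ ball o R, ContDiffAt ℝ ∞ B x) ∧ (∀ k, BC (fun _ : Unit => ball o R) k fun _ => B) ∧
      (∀ x ∈ ball o R \ {o}, g x ∈ H) ∧
      ∀ x ∈ ball o R, ∀ v, B x v ∈ H ∧ star (B x v) = -B x v := by
  rcases (ball o R \ {o}).eq_empty_or_nonempty with he | ⟨p, hp⟩
  · have e : ∀ {P : E → Prop}, ∀ x ∈ ball o R \ {o}, P x := fun x hx => by simp [he] at hx
    exact ⟨fun _ => 1, fun _ => 0, ⟨fun _ => e, fun _ => e, fun _ => e, fun _ => e⟩,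
      fun _ _ => contDiffAt_const, BC.const (fun _ => isOpen_ball) 0, e,
      fun _ _ _ => ⟨zero_mem H, by simp⟩⟩
  have hU := isOpen_PB o R ()
  set U := ball o R \ {o} with hUd
  let Ω : Set E := {x | (p, x) ∈ segD U}
  have oΩ : IsOpen Ω := (isOpen_segD hU).preimage (by fun_prop : Continuous fun x : E => (p, x))
  have sub : Ω ⊆ U := fun x hx => segD_right hx
  have hS := thin_line h o (p - o)
  have h1 : ball o R \ {z | ∃ c : ℝ, z = o + c • (p - o)} ⊆ Ω := by
    intro x hx t ht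
    refine ⟨(convex_ball o R).add_smul_sub_mem hp.1 hx.1 ht, fun e => hx.2 ?_⟩
    have e' : p + t • (x - p) = o := e
    have t0 : t ≠ 0 := by
      rintro rfl
      exact hp.2 (by simpa using e')
    refine ⟨1 - t⁻¹, ?_⟩
    have : x = p + t⁻¹ • (o - p) := by
      rw [← e', add_sub_cancel_left, smul_smul, inv_mul_cancel₀ t0, one_smul, add_sub_cancel]
    rw [this]; module
  have dn : ball o R ⊆ closure Ω := fun x hx =>
    closure_mono h1 (hS.mem_closure isOpen_ball hx)
  obtain ⟨g, B, G, bB, mg, mB⟩ := rad (Ω := fun _ : Unit => Ω) (p := fun _ => p)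
    (Γ := fun _ => Γ) (fun _ => oΩ) (fun _ x hx t ht => segD_scale hx ht)
    ⟨2 * R, fun _ x hx => by
      have a := mem_ball_iff_norm.1 (sub hx).1
      have b := mem_ball_iff_norm.1 hp.1
      have := norm_sub_le_norm_sub_add_norm_sub x o p
      rw [norm_sub_rev o p] at this
      linarith⟩
    (s.reindex id fun _ => sub) (fun _ x hx => sk x (sub hx)) H (fun _ x hx => hH x (sub hx))
    fun k u v => (hF k u v).reindex id fun _ => sub
  obtain ⟨B', sB', eB⟩ := hS.ext isOpen_ball (convex_ball o R) oΩ h1 (fun x hx => (sub hx).1)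
    (f := B ()) G.sB bB
  have G' : Gauge (fun _ : Unit => Ω) (fun _ => Γ) (fun _ => B') g :=
    ⟨G.sg, fun _ x hx => sB' x (sub hx).1, G.un, fun _ x hx v => by rw [eB hx]; exact G.dg _ x hx v⟩
  obtain ⟨g', sg', eg⟩ := hS.ext_loc (U := U) oΩ (fun x hx => h1 ⟨hx.1.1, hx.2⟩) (f := g ())
    G.sg fun z hz => by
      obtain ⟨r, hr, hb⟩ := nhds_basis_closedBall.mem_iff.1 (hU.mem_nhds hz)
      have : ProperSpace E := FiniteDimensional.proper_real E
      have oo : IsOpen (ball z r ∩ Ω) := isOpen_ball.inter oΩ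
      have ss : ball z r ∩ Ω ⊆ closedBall z r := fun x hx => ball_subset_closedBall hx.1
      refine ⟨r, hr, ball_subset_closedBall.trans hb, fun k => BC.pred ?_⟩
      exact (G'.reindex (Ω' := fun _ : Unit => ball z r ∩ Ω) id fun _ => inter_subset_right).bc
        (fun _ => oo) (fun _ x hx => s () x (sub hx.2)) k
        (fun v => bc_of_compact (isCompact_closedBall z r) oo ss
          (fun x hx => (s () x (hb hx)).clm_apply contDiffAt_const) k)
        (fun v => bc_of_compact (isCompact_closedBall z r) oo ss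
          (fun x hx => (sB' x (hb hx).1).clm_apply contDiffAt_const) k)
  have cH : IsClosed (H : Set 𝔸) := H.toSubalgebra.toSubmodule.closed_of_finiteDimensional
  refine ⟨g', B', ⟨fun _ => sg', fun _ x hx => sB' x hx.1, fun _ x hx => ?_, fun _ x hx v => ?_⟩,
    sB', fun k => BC.dense (fun _ => dn) (fun _ => sB') ((bB k).congr (fun _ => oΩ) fun _ => eB),
    fun x hx => ?_, fun x hx v => ⟨?_, ?_⟩⟩
  · exact mem_of_dense (dn hx.1) (sg' x hx).continuousAt isClosed_unit
      fun y hy => by rw [eg hy]; exact G.un _ y hy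
  · rw [← sub_eq_zero]
    have c1 := (sg' x hx).continuousAt
    refine mem_of_dense (f := fun x => fderiv ℝ g' x v - (g' x * Γ x v - B' x v * g' x))
      (dn hx.1) ((((sg' x hx).fderiv_right (m := 0) (by simp)).continuousAt.clm_apply
        continuousAt_const).sub ((c1.mul ((s () x hx).continuousAt.clm_apply
        continuousAt_const)).sub (((sB' x hx.1).continuousAt.clm_apply continuousAt_const).mul c1)))
      (isClosed_singleton (x := (0 : 𝔸))) fun y hy => ?_
    rw [mem_singleton_iff, sub_eq_zero, eg hy,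
      Filter.EventuallyEq.fderiv_eq (eventually_of_mem (oΩ.mem_nhds hy) eg)]
    exact G'.dg () y hy v
  · exact mem_of_dense (dn hx.1) (sg' x hx).continuousAt cH
      fun y hy => by rw [eg hy]; exact mg _ y hy
  · exact mem_of_dense (f := fun x => B' x v) (dn hx)
      ((sB' x hx).continuousAt.clm_apply continuousAt_const) cH
      fun y hy => by rw [eB hy]; exact (mB _ y hy v).1
  · exact mem_of_dense (f := fun x => B' x v) (dn hx)
      ((sB' x hx).continuousAt.clm_apply continuousAt_const) (K := {a | star a = -a})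
      (isClosed_eq continuous_star continuous_neg)
      fun y hy => by rw [eB hy]; exact (mB _ y hy v).2

/-- **REM** for sections, in the gauge given by `rem` -/
theorem rem_sec [FiniteDimensional ℝ V] (h : 3 < Module.finrank ℝ E) {o : E} {R : ℝ}
    {Γ B : E → E →L[ℝ] 𝔸} {g : E → 𝔸} (s : Sm (PB o R) fun _ => Γ)
    (G : Gauge (PB o R) (fun _ => Γ) (fun _ => B) fun _ => g)
    (bB : ∀ k, BC (fun _ : Unit => ball o R) k fun _ => B)
    (ρ : 𝔸 →L[ℝ] V →L[ℝ] V) (hρ : ∀ a b y, ρ (a * b) y = ρ a (ρ b y)) {u : E → V}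
    (su : Sm (PB o R) fun _ => u) (hu : ∀ k, BD (PB o R) (rep ρ fun _ => Γ) k fun _ => u) :
    ∃ w : E → V, (∀ x ∈ ball o R, ContDiffAt ℝ ∞ w x) ∧
      ∀ x ∈ ball o R \ {o}, w x = ρ (g x) (u x) :=
  ext_point h (f := fun x => ρ (g x) (u x)) ((G.sg.clm ρ).app su) fun k =>
    (G.bc_sec (isOpen_PB o R) s ρ hρ ((bB k).reindex id fun _ => sdiff_subset) su (hu (k + 1))).pred

/-- **REM** for sections of the adjoint bundle -/
theorem rem_ad [FiniteDimensional ℝ 𝔸] (h : 3 < Module.finrank ℝ E) {o : E} {R : ℝ}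
    {Γ B : E → E →L[ℝ] 𝔸} {g : E → 𝔸} (s : Sm (PB o R) fun _ => Γ)
    (G : Gauge (PB o R) (fun _ => Γ) (fun _ => B) fun _ => g)
    (bB : ∀ k, BC (fun _ : Unit => ball o R) k fun _ => B) {u : E → 𝔸}
    (su : Sm (PB o R) fun _ => u) (hu : ∀ k, BD (PB o R) (rep adL fun _ => Γ) k fun _ => u) :
    ∃ w : E → 𝔸, (∀ x ∈ ball o R, ContDiffAt ℝ ∞ w x) ∧
      ∀ x ∈ ball o R \ {o}, w x = g x * u x * star (g x) := by
  have ho := isOpen_PB o R
  have s1 := (G.sg.mul su).mul G.sg.star
  refine ext_point h (f := fun x => g x * u x * star (g x)) s1 fun k => BC.pred ?_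
  exact BD.bc ho (G.sB.rep adL) s1 (fun v => BC.clm ho adL (G.sB.app (Sm.const v))
    (BC.app ho G.sB (Sm.const v) ((bB k).reindex id fun _ => sdiff_subset) (BC.const ho v k)))
    (G.bd_ad ho s su (hu (k + 1)))

end Crest.Agent.X212.Eps63

end
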